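import Vale.Agent.P330.Outer.GM.Defs

/-!
P330, outer system: the abstract machine with control follows the vector machine.
-/

namespace Vale.Agent.P330.Outer.GMD

open Vale.Agent.P330.Bohr

variable {m : ℕ} {F : Type} [Field F] {D : Dat m F} {np : ℕ → Gam m → F}

namespace Abs

/-! ### Causality -/

theorem bV_eq (B : D.Bk) (j : ℕ) : D.bV np B j = if j < 1 then B none else
    (D.M.ins j).elim (fun c => c.eval np fun i => if i < j then D.bV np B i else 0)
      fun _ => gsum (fun k => B (some (Fin.ofNat _ j, k))) (D.t 0) := by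
  unfold Dat.bV
  rw [run_eq]

theorem bV_congr {B B' : D.Bk} (h0 : B none = B' none) (j : ℕ)
    (h : ∀ i : Fin (D.M.n + 1), (i : ℕ) ≤ j → ∀ k, B (some (i, k)) = B' (some (i, k))) :
    D.bV np B j = D.bV np B' j := by
  induction j using Nat.strong_induction_on with
  | _ j ih =>
    have h1 : (fun i => if i < j then D.bV np B i else 0) =
        fun i => if i < j then D.bV np B' i else 0 := funext fun i => by
      split_ifs with hi
      · exact ih i hi fun i' hi' => h i' (hi'.trans hi.le)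
      · rfl
    have h2 : (fun k => B (some (Fin.ofNat _ j, k))) = fun k => B' (some (Fin.ofNat _ j, k)) :=
      funext (h _ (Nat.mod_le _ _))
    rw [bV_eq, bV_eq, h0, h1, h2]

omit [Field F] in
theorem fac_lt {s : Bool} {i j : ℕ} (h : D.fac s i = some j) : 1 ≤ i ∧ i < D.M.n ∧ j < i := by
  unfold Dat.fac at h
  rcases hc : D.M.ins i with c | c <;> rw [hc] at h
  · simp at h
  · simp only [Sum.elim_inr, Option.ite_none_right_eq_some, Option.some.injEq] at h
    exact h.2 ▸ h.1

theorem facV_zero (B : D.Bk) (s : Bool) {i : ℕ} (h : i = 0 ∨ D.M.n ≤ i) : D.facV np B s i = 0 := by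
  unfold Dat.facV
  cases hj : D.fac s i with
  | none => rfl
  | some j =>
    have := fac_lt hj
    omega

theorem facV_congr {B B' : D.Bk} (h0 : B none = B' none) (s : Bool) (i : ℕ)
    (h : ∀ i' : Fin (D.M.n + 1), (i' : ℕ) < i → ∀ k, B (some (i', k)) = B' (some (i', k))) :
    D.facV np B s i = D.facV np B' s i := by
  unfold Dat.facV
  cases hj : D.fac s i with
  | none => rfl
  | some j => exact bV_congr h0 j fun i' hi' => h i' (hi'.trans_lt (fac_lt hj).2.2)

theorem cf_zero (q : ℕ) : cf (0 : Gam m → F) 0 q = 0 := by simp [cf, hat_zero]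

theorem cfB_zero (B : D.Bk) {q : ℕ} (h : fI m q = 0 ∨ D.M.n ≤ fI m q) : D.cfB np B q = 0 := by
  rw [Dat.cfB, facV_zero B _ h, facV_zero B _ h, cf_zero]

theorem cfB_bot (B : D.Bk) : D.cfB np B 0 = 0 := cfB_zero B (Or.inl (Nat.zero_div _))

theorem four_pos : 0 < 4 ^ m := by positivity

theorem cfB_top (B : D.Bk) : D.cfB np B D.top = 0 :=
  cfB_zero B (Or.inr (Nat.mul_div_cancel _ four_pos).ge)

theorem tgt_zero (σ : ℕ) (k : Fin (m + 1)) : D.tgt 0 0 σ k = 0 := by
  funext ε
  simp [Dat.tgt, cf_zero]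

theorem tgt_bot (x y : Gam m → F) (k : Fin (m + 1)) : D.tgt x y 0 k = 0 := by
  funext ε
  simp [Dat.tgt]

theorem tgt_ge (x y : Gam m → F) {σ σ' : ℕ} (h : 4 ^ m ≤ σ) (h' : 4 ^ m ≤ σ') :
    D.tgt x y σ = D.tgt x y σ' := by
  funext k ε
  simp only [Dat.tgt, min_eq_right h, min_eq_right h']

theorem fq_mod (s : Bool) (q : ℕ) : fq m s (q % 4 ^ m) = fq m s q := by
  have h : 4 ^ m = 2 ^ m * 2 ^ m := mul_pow 2 2 m
  cases s
  · simp only [fq, Bool.false_eq_true, if_false, h, Nat.mod_mul_right_div_self, Nat.mod_mod]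
  · simp only [fq, if_true, h, Nat.mod_mul_right_mod]

theorem tgt_succ (x y : Gam m → F) (q : ℕ) (k : Fin (m + 1)) :
    D.tgt x y (q % 4 ^ m + 1) k =
      fun ε => D.tgt x y (q % 4 ^ m) k ε + cf x y q * D.ek q k * chv m F q ε := by
  have h : q % 4 ^ m < 4 ^ m := Nat.mod_lt _ four_pos
  funext ε
  simp only [Dat.tgt, min_eq_left h.le, min_eq_left (Nat.succ_le_of_lt h), Finset.sum_range_succ,
    cf, Dat.ek, chv, fq_mod]

theorem bank_zero {B : D.Bk} (h : D.BankOk np B 0) (h0 : B none = 0) : B = 0 := by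
  funext ρ
  rcases ρ with _ | ⟨i, k⟩
  · exact h0
  · rw [h i k, Nat.zero_sub, tgt_bot]
    rfl

/-- The effect of one write. -/
theorem write {B B' : D.Bk} {q : ℕ} {c : F} (h0 : q ≠ 0 → B' none = B none)
    (h1 : ∀ i k, B' (some (i, k)) = fun ε => B (some (i, k)) ε +
      (if (i : ℕ) = fI m q then fun ε => c * D.ek q k * chv m F q ε else 0) ε) :
    D.cfB np B' q = D.cfB np B q ∧
      (c = D.cfB np B q → (D.BankOk np B q ↔ D.BankOk np B' (q + 1))) := by
  have hne : ∀ (i : Fin (D.M.n + 1)) k, (i : ℕ) ≠ fI m q → B' (some (i, k)) = B (some (i, k)) :=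
    fun i k hi => by simp [h1, hi]
  have hf : ∀ s i, i ≤ fI m q → D.facV np B' s i = D.facV np B s i := by
    intro s i hi
    by_cases hq : q = 0
    · have : i = 0 := by simpa [hq, fI] using hi
      rw [facV_zero _ _ (Or.inl this), facV_zero _ _ (Or.inl this)]
    · exact facV_congr (h0 hq) s i fun i' hi' k => hne i' k (by omega)
  refine ⟨by rw [Dat.cfB, hf _ _ le_rfl, hf _ _ le_rfl, Dat.cfB], fun hc => ?_⟩
  refine forall_congr' fun i => forall_congr' fun k => ?_
  have hd := Nat.div_add_mod' q (4 ^ m)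
  have hm : q % 4 ^ m < 4 ^ m := Nat.mod_lt _ four_pos
  rcases lt_trichotomy (i : ℕ) (fI m q) with hi | hi | hi
  · have : (i + 1) * 4 ^ m ≤ q / 4 ^ m * 4 ^ m := Nat.mul_le_mul_right _ hi
    rw [add_mul, one_mul] at this
    rw [hne i k hi.ne, hf _ _ hi.le, hf _ _ hi.le,
      tgt_ge _ _ (σ := q + 1 - i * 4 ^ m) (σ' := q - i * 4 ^ m) (by omega) (by omega)]
  · have e1 : q - i * 4 ^ m = q % 4 ^ m := by
      rw [hi, fI]
      omega
    have e2 : q + 1 - i * 4 ^ m = q % 4 ^ m + 1 := by
      rw [hi, fI]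
      omega
    rw [h1, hf _ _ hi.le, hf _ _ hi.le, e1, e2, tgt_succ, if_pos hi, hc, Dat.cfB, ← hi]
    simp only [funext_iff, add_left_inj]
  · have : (q / 4 ^ m + 1) * 4 ^ m ≤ i * 4 ^ m := Nat.mul_le_mul_right _ hi
    rw [add_mul, one_mul] at this
    rw [hne i k hi.ne', show q - i * 4 ^ m = 0 by omega, show q + 1 - i * 4 ^ m = 0 by omega,
      tgt_bot, tgt_bot]

/-! ### The moves up and down -/

omit [Field F] in
theorem St.ext' {σ σ' : D.St} (h1 : σ.N = σ'.N) (h2 : σ.c = σ'.c) (h3 : σ.B = σ'.B) : σ = σ' := by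
  cases σ
  cases σ'
  simp only at h1 h2 h3
  rw [h1, h2, h3]

/-- the move up -/
noncomputable def up (np : ℕ → Gam m → F) (σ : D.St) : D.St :=
  ⟨σ.N + 4, newc 2 σ.N σ.c (D.cfB np (σ.B true) (oth σ.N)), D.mvB np 2 σ⟩

/-- the move down -/
noncomputable def down (np : ℕ → Gam m → F) (σ : D.St) : D.St :=
  ⟨σ.N - 4, newc 3 σ.N σ.c (D.cfB np (σ.B true) (oth σ.N)), D.mvB np 3 σ⟩

theorem mvB_false {mv : ℕ} (h : 2 ≤ mv) (σ : D.St) : D.mvB np mv σ false = σ.B false := by
  simp only [Dat.mvB, if_neg (show mv ≠ 0 by omega), if_neg (show mv ≠ 1 by omega),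
    Bool.false_eq_true, if_false]

theorem mvB_true {mv : ℕ} (h : 2 ≤ mv) (σ : D.St) : D.mvB np mv σ true =
    fun ρ ε => σ.B true ρ ε + sgn F (decide (mv = 2)) σ.N * D.delta np σ ρ ε := by
  simp only [Dat.mvB, if_neg (show mv ≠ 0 by omega), if_neg (show mv ≠ 1 by omega), if_true]

theorem mvB_still {mv : ℕ} (h : 2 ≤ mv) (σ : D.St) (hs : sgn F (decide (mv = 2)) σ.N = 0) :
    D.mvB np mv σ = σ.B := by
  funext β
  cases β
  · exact mvB_false h σ
  · simp only [mvB_true h, hs, zero_mul, add_zero]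

theorem src_congr {N N' : ℕ} (h : N % 4 = N' % 4) (B : D.Bk) : D.src np N B = D.src np N' B := by
  simp only [Dat.src, h]

theorem delta_congr {σ σ' : D.St} (h1 : σ.N / 8 = σ'.N / 8) (h2 : σ.N % 4 = σ'.N % 4)
    (h3 : σ.c = σ'.c) (h4 : σ.B false = σ'.B false) : D.delta np σ = D.delta np σ' := by
  unfold Dat.delta
  rw [h1, h3, h4, src_congr h2]

/-- Validity of two states which differ by a write. -/
theorem valid_write {σ σ' : D.St} (hN : σ'.N = σ.N + 4) (he : σ.N / 4 % 2 = 0) (h1 : σ.N % 4 ≠ 1)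
    (hle : σ.N / 4 < 2 * D.top) (hc : σ'.c = σ.c) (hf : σ'.B false = σ.B false)
    (ht : σ'.B true = fun ρ ε => σ.B true ρ ε + D.delta np σ ρ ε) :
    D.AValid np σ ↔ D.AValid np σ' := by
  have e0 : σ'.N % 4 = σ.N % 4 := by omega
  have e1 : σ'.N / 8 = σ.N / 8 := by omega
  have e2 : (σ'.N + 4) / 8 = σ.N / 8 + 1 := by omega
  have e3 : (σ.N + 4) / 8 = σ.N / 8 := by omega
  have e4 : σ'.N / 4 ≠ 0 := by omega
  have hz : σ'.B true none = fun ε => σ.B true none ε +
      (if σ.N / 8 = 0 then D.src np σ.N (σ.B false) else 0) ε := by rw [ht]; rfl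
  obtain ⟨w1, w2⟩ := write (np := np) (B := σ.B true) (B' := σ'.B true) (q := σ.N / 8) (c := σ.c)
    (fun hq => by simp [hz, hq]) fun i k => by rw [ht]; rfl
  have hzw : (σ.B true none = if σ.N / 4 = 0 then 0 else D.src np σ.N (σ.B false)) ↔
      σ'.B true none = if σ'.N / 4 = 0 then 0 else D.src np σ'.N (σ'.B false) := by
    rw [if_neg e4, hz, hf, src_congr e0]
    by_cases hq : σ.N / 8 = 0
    · rw [if_pos hq, if_pos (by omega)]
      simp [funext_iff]
    · rw [if_neg hq, if_neg (by omega)]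
      simp [funext_iff]
  constructor
  · intro h
    refine ⟨by omega, by omega, by rw [hc, e1, w1, h.coef], by rw [hf, e0]; exact h.main, ?_,
      hzw.1 h.zw, by rw [hf, e0]; exact h.zm, by rw [hf, e0]; exact h.zero,
      by rw [hf, e0]; exact h.flag⟩
    rw [e2, ← w2 h.coef, ← e3]
    exact h.work
  · intro h
    have hc' : σ.c = D.cfB np (σ.B true) (σ.N / 8) := by rw [← hc, h.coef, e1, w1]
    refine ⟨by omega, by omega, hc', by rw [← hf, ← e0]; exact h.main, ?_,
      hzw.2 h.zw, by rw [← hf, ← e0]; exact h.zm, by rw [← hf, ← e0]; exact h.zero,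
      by rw [← hf, ← e0]; exact h.flag⟩
    rw [e3, w2 hc', ← e2]
    exact h.work

/-- Validity of a state which differs from a valid state by a change of the pair. -/
theorem valid_still {σ σ' : D.St} (h : D.AValid np σ) (e0 : σ'.N % 4 = σ.N % 4)
    (h1 : σ.N % 4 ≠ 1) (hle : σ'.N / 4 ≤ 2 * D.top) (e2 : (σ'.N + 4) / 8 = (σ.N + 4) / 8)
    (e3 : σ.N / 4 ≠ 0) (e4 : σ'.N / 4 ≠ 0) (hB : σ'.B = σ.B)
    (hc : σ'.c = D.cfB np (σ.B true) (σ'.N / 8)) : D.AValid np σ' := by
  refine ⟨hle, by omega, by rw [hB, hc], by rw [hB, e0]; exact h.main, by rw [hB, e2]; exact h.work,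
    ?_, by rw [hB, e0]; exact h.zm, by rw [hB, e0]; exact h.zero, by rw [hB, e0]; exact h.flag⟩
  rw [hB, h.zw, if_neg e3, if_neg e4, src_congr e0]

theorem up_link {σ : D.St} (h : D.AValid np σ) (h1 : σ.N % 4 ≠ 1) (hle : σ.N / 4 < 2 * D.top) :
    D.AValid np (up np σ) ∧ down np (up np σ) = σ := by
  have hN : (up np σ).N = σ.N + 4 := rfl
  rcases Nat.mod_two_eq_zero_or_one (σ.N / 4) with he | he
  · have hc : (up np σ).c = σ.c := by
      simp only [up, newc, lt_irrefl, if_false]
      rw [if_pos (by omega)]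
    have hf : (up np σ).B false = σ.B false := mvB_false (np := np) le_rfl σ
    have ht : (up np σ).B true = fun ρ ε => σ.B true ρ ε + D.delta np σ ρ ε := by
      refine (mvB_true le_rfl σ).trans ?_
      simp [sgn, he]
    refine ⟨(valid_write hN he h1 hle hc hf ht).1 h, St.ext' (by simp [down, hN]) ?_ ?_⟩
    · rw [← hc]
      simp only [down, newc, show ¬ 3 < 2 by omega, if_false]
      rw [if_pos (by omega)]
    · funext β
      cases β
      · exact (mvB_false (np := np) (mv := 3) (by omega) (up np σ)).trans hf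
      · refine (mvB_true (np := np) (mv := 3) (by omega) (up np σ)).trans ?_
        rw [delta_congr (σ' := σ) (by omega) (by omega) hc hf, ht]
        have : (up np σ).N / 4 % 2 = 1 := by omega
        simp [sgn, this]
  · have hB : (up np σ).B = σ.B := mvB_still le_rfl σ (by simp [sgn, he])
    have hc : (up np σ).c = D.cfB np (σ.B true) ((up np σ).N / 8) := by
      simp only [up, newc, lt_irrefl, if_false, oth, if_pos he]
      rw [if_neg (by omega), show (σ.N + 4) / 8 = σ.N / 8 + 1 by omega]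
    have ho : (up np σ).N / 4 % 2 = 0 := by omega
    refine ⟨valid_still h (by omega) h1 (by omega) (by omega) (by omega) (by omega) hB hc,
      St.ext' (by simp [down, hN]) ?_ ?_⟩
    · simp only [down, newc, show ¬ 3 < 2 by omega, if_false, oth]
      rw [if_neg (by omega), if_neg (by omega), hB, h.coef,
        show (up np σ).N / 8 - 1 = σ.N / 8 by omega]
    · exact (mvB_still (mv := 3) (by omega) _ (by simp [sgn, ho])).trans hB

theorem down_link {σ : D.St} (h : D.AValid np σ) (h1 : σ.N % 4 ≠ 1) (h0 : σ.N / 4 ≠ 0) :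
    D.AValid np (down np σ) ∧ up np (down np σ) = σ := by
  have hN : (down np σ).N = σ.N - 4 := rfl
  have hle := h.le
  rcases Nat.mod_two_eq_zero_or_one (σ.N / 4) with he | he
  · have hB : (down np σ).B = σ.B := mvB_still (np := np) (mv := 3) (by omega) σ (by simp [sgn, he])
    have hc : (down np σ).c = D.cfB np (σ.B true) ((down np σ).N / 8) := by
      simp only [down, newc, show ¬ 3 < 2 by omega, if_false, oth]
      rw [if_neg (by omega), if_neg (by omega), show (σ.N - 4) / 8 = σ.N / 8 - 1 by omega]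
    have ho : (down np σ).N / 4 % 2 = 1 := by omega
    refine ⟨valid_still h (by omega) h1 (by omega) (by omega) (by omega) (by omega) hB hc,
      St.ext' (by simp only [up, hN]; omega) ?_ ?_⟩
    · simp only [up, newc, lt_irrefl, if_false, oth, if_pos ho]
      rw [if_neg (by omega), hB, h.coef, show (down np σ).N / 8 + 1 = σ.N / 8 by omega]
    · exact (mvB_still le_rfl _ (by simp [sgn, ho])).trans hB
  · have hc : σ.c = (down np σ).c := by
      simp only [down, newc, show ¬ 3 < 2 by omega, if_false]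
      rw [if_pos (by omega)]
    have hf : σ.B false = (down np σ).B false := (mvB_false (np := np) (mv := 3) (by omega) σ).symm
    have ho : (down np σ).N / 4 % 2 = 0 := by omega
    have ht : σ.B true = fun ρ ε => (down np σ).B true ρ ε + D.delta np (down np σ) ρ ε := by
      rw [← delta_congr (σ := σ) (by omega) (by omega) hc hf,
        show (down np σ).B true = _ from mvB_true (np := np) (mv := 3) (by omega) σ]
      simp [sgn, he]
    refine ⟨(valid_write (by omega) ho (by omega) (by omega) hc hf ht).2 h,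
      St.ext' (by simp only [up, hN]; omega) ?_ ?_⟩
    · rw [hc]
      simp only [up, newc, lt_irrefl, if_false]
      rw [if_pos (by omega)]
    · funext β
      cases β
      · exact (mvB_false (np := np) le_rfl (down np σ)).trans hf.symm
      · refine (mvB_true (np := np) le_rfl (down np σ)).trans ?_
        rw [ht]
        simp [sgn, ho]

/-! ### Complete banks -/

variable {pub : ℕ → Gam m → F}

theorem U_inj (hC : D.Cv) : Function.Injective (D.U 0) := uAll_injective hC.two (hC.ne 0)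

theorem U_zero (hC : D.Cv) : D.U 0 0 = 0 := uAll_zero hC.two _

theorem U_npub (hC : D.Cv) (j : ℕ) : D.U 0 (D.npub pub j) = pub j :=
  uAll_inv_right hC.two (hC.ne 0) _

theorem chi_bot : chi F (0 : Gam m) = 1 := funext fun ε => by simp

theorem U_one (hC : D.Cv) : D.U 0 1 = 1 := by
  rw [← chi_bot, Dat.U, uAll_chi hC.two]
  simp only [rp_zero, one_mul]

theorem hat_one (hC : D.Cv) : hat (1 : Gam m → F) 0 = 1 := by
  rw [← chi_bot, hat_chi hC.two, if_pos rfl]

theorem U_eval (hC : D.Cv) (c : LIns m F) (R : ℕ → Gam m → F) :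
    D.U 0 (c.eval (D.npub pub) R) = c.eval pub fun j => D.U 0 (R j) := by
  rcases c with l | c | c
  · induction l with
    | nil => exact U_zero hC
    | cons x l ih =>
      simp only [LIns.eval, List.map_cons, List.sum_cons] at ih ⊢
      rw [Dat.U, uAll_add hC.two, uAll_mul hC.two]
      funext ε
      exact congrArg _ (congrFun ih ε)
  · exact uAll_shift hC.two _ _ _
  · exact U_npub hC c

theorem complete (hO : OpStmt) (hC : D.Cv) {B : D.Bk} (h : D.BankOk (D.npub pub) B D.top) {i : ℕ}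
    (hi : i < D.M.n) : D.U 0 (D.bV (D.npub pub) B i) = D.M.reg pub (D.U 0 (B none)) i := by
  induction i using Nat.strong_induction_on with
  | _ i ih =>
    have h1 : ∀ j, D.U 0 (if j < i then D.bV (D.npub pub) B j else 0) =
        if j < i then D.M.reg pub (D.U 0 (B none)) j else 0 := fun j => by
      split_ifs with hj
      · exact ih j hj (hj.trans hi)
      · exact U_zero hC
    rw [bV_eq, VM.reg, run_eq]
    split_ifs with h0
    · rfl
    · rcases hc : D.M.ins i with c | c
      · simp only [Sum.elim_inl, U_eval hC, h1, VIns.eval]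
        rfl
      · have hv : ((Fin.ofNat (D.M.n + 1) i : Fin _) : ℕ) = i := Nat.mod_eq_of_lt (by omega)
        have hf : ∀ s, D.facV (D.npub pub) B s i = if (if s then c.2 else c.1) < i then
            D.bV (D.npub pub) B (if s then c.2 else c.1) else 0 := fun s => by
          simp only [Dat.facV, Dat.fac, hc, Sum.elim_inr, not_lt.1 h0, hi, true_and]
          split_ifs <;> rfl
        have hle : 4 ^ m ≤ D.top - i * 4 ^ m := by
          have : (i + 1) * 4 ^ m ≤ D.M.n * 4 ^ m := Nat.mul_le_mul_right _ hi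
          rw [add_mul, one_mul] at this
          unfold Dat.top
          omega
        funext ε
        simp only [Sum.elim_inr, h _, hv, VIns.eval]
        refine ((hO m F D hC).2.2.2.2.1 0 (by omega) _ _ _ ε hle).trans ?_
        rw [hf, hf, h1, h1]
        rfl

variable (hO : OpStmt) (hC : D.Cv) (hM : D.M.Ok pub)
include hO hC hM

omit hM in
theorem valid_iff {B : D.Bk} (h : D.BankOk (D.npub pub) B D.top) :
    D.M.Valid pub (D.U 0 (B none)) ↔
      ∀ i < D.M.n, D.M.zero i = true → D.bV (D.npub pub) B i = 0 :=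
  forall₃_congr fun i hi _ => by
    rw [← complete hO hC h hi]
    exact (U_inj hC).eq_iff' (U_zero hC)

theorem flag_one {B : D.Bk} (h : D.BankOk (D.npub pub) B D.top) (h0 : D.U 0 (B none) = pub 0) :
    D.bV (D.npub pub) B D.M.fst = 1 :=
  U_inj hC (by rw [complete hO hC h hM.fst, h0, hM.flag1, U_one hC])

theorem flag_zero {B : D.Bk} (h : D.BankOk (D.npub pub) B D.top)
    (hv : D.M.Valid pub (D.U 0 (B none))) (h0 : D.U 0 (B none) ≠ pub 0) :
    D.bV (D.npub pub) B D.M.fst = 0 :=
  U_inj hC (by rw [complete hO hC h hM.fst, hM.flag0 _ hv h0, U_zero hC])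

omit hO hC in
theorem top_pos : 0 < D.top := Nat.mul_pos hM.pos four_pos

omit hO hC hM in
theorem main_top {σ : D.St} (h : D.AValid np σ) (h0 : σ.N % 4 ≠ 0) :
    D.BankOk np (σ.B false) D.top := by simpa only [if_neg h0] using h.main

omit hM in
theorem main_valid {σ : D.St} (h : D.AValid (D.npub pub) σ) (h0 : σ.N % 4 ≠ 0) :
    D.M.Valid pub (D.U 0 (σ.B false none)) := (valid_iff hO hC (main_top h h0)).2 (h.zero h0)

/-! ### The changes of the phase -/

/-- From the end of the initial phase to the hand over. -/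
theorem link_IJ {B : Bool → D.Bk} {c c' : F} :
    (D.AValid (D.npub pub) ⟨8 * D.top, c, B⟩ →
      c = 0 ∧ D.AValid (D.npub pub) ⟨1, 0, fun β => B (!β)⟩) ∧
    (D.AValid (D.npub pub) ⟨1, c', B⟩ →
      c' = 0 ∧ D.AValid (D.npub pub) ⟨8 * D.top, 0, fun β => B (!β)⟩) := by
  have ht := top_pos hM
  have e0 : 8 * D.top % 4 = 0 := by omega
  have e1 : 8 * D.top / 8 = D.top := by omega
  have e2 : (8 * D.top + 4) / 8 = D.top := by omega
  have e3 : 8 * D.top / 4 ≠ 0 := by omega
  constructor
  · intro h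
    have h1 := h.work
    have h2 := h.zw
    simp only [e2, if_neg e3, Dat.src, if_pos e0] at h1 h2
    have h3 := h.main
    have h4 := h.zm
    simp only [e0, if_true, Nat.zero_le, zero_ne_one, if_false, forall_true_left] at h3 h4
    refine ⟨by simpa only [e1, cfB_top] using h.coef, by simp, by simp, by simp [cfB_bot],
      by simpa using h1, by simpa using h3, by simpa using h4, fun _ => by simpa using h2,
      fun _ => (valid_iff hO hC h1).1 ?_, by simp⟩
    rw [h2, U_npub hC]
    exact hM.start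
  · intro h
    refine ⟨by simpa [cfB_bot] using h.coef, by simp only; omega, by simp only; omega,
      by simp only [e1, cfB_top], by simpa [e0] using h.work,
      by simpa [e2] using h.main, ?_, fun _ => ?_, by simp [e0], by simp [e0]⟩
    · simpa [e3, Dat.src, e0] using h.zm
    · simpa [e0] using h.zw

omit hO hC hM in
/-- States without work: only the phase changes. -/
theorem link_bot {B : Bool → D.Bk} {c : F} {p p' : ℕ} (h : D.AValid np ⟨p, c, B⟩) (h1 : 0 < p)
    (h2 : p < 4) (h1' : 0 < p') (h2' : p' < 4) (hz : p' = 1 → B false none = np 0)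
    (hf : p' = 3 → D.bV np (B false) D.M.fst = 0) : c = 0 ∧ D.AValid np ⟨p', 0, B⟩ := by
  have e0 : p % 4 ≠ 0 := by omega
  have e0' : p' % 4 ≠ 0 := by omega
  refine ⟨by simpa only [show p / 8 = 0 by omega, cfB_bot] using h.coef, by simp only; omega,
    by simp only; omega, by simp only [show p' / 8 = 0 by omega, cfB_bot],
    by simpa only [if_neg e0'] using main_top h e0,
    by simpa only [show (p + 4) / 8 = 0 by omega, show (p' + 4) / 8 = 0 by omega] using h.work,
    by simpa only [show p / 4 = 0 by omega, show p' / 4 = 0 by omega, if_true] using h.zw,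
    fun h3 => ?_, fun _ => h.zero e0, fun h3 => hf (by simp only at h3; omega)⟩
  simp only at h3 ⊢
  rw [if_pos (by omega)]
  exact hz (by omega)

/-- The edges of the vector machine. -/
theorem link_AB {B : Bool → D.Bk} {c : F} :
    (D.AValid (D.npub pub) ⟨8 * D.top + 2, c, B⟩ → (∃ z, D.M.Step pub (D.U 0 (B false none)) z) →
      c = 0 ∧ D.AValid (D.npub pub) ⟨8 * D.top + 3, 0, fun β => B (!β)⟩) ∧
    (D.AValid (D.npub pub) ⟨8 * D.top + 3, c, B⟩ → (∃ z, D.M.Step pub z (D.U 0 (B false none))) →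
      c = 0 ∧ D.AValid (D.npub pub) ⟨8 * D.top + 2, 0, fun β => B (!β)⟩) := by
  have ht := top_pos hM
  have a0 : (8 * D.top + 2) % 4 = 2 := by omega
  have a1 : (8 * D.top + 2) / 8 = D.top := by omega
  have a2 : (8 * D.top + 2 + 4) / 8 = D.top := by omega
  have a3 : (8 * D.top + 2) / 4 ≠ 0 := by omega
  have b0 : (8 * D.top + 3) % 4 = 3 := by omega
  have b1 : (8 * D.top + 3) / 8 = D.top := by omega
  have b2 : (8 * D.top + 3 + 4) / 8 = D.top := by omega
  have b3 : (8 * D.top + 3) / 4 ≠ 0 := by omega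
  constructor
  · rintro h ⟨z, -, hz2, hz3, hz4, hz5⟩
    have h0 := main_top h (by simp only; omega)
    have h1 := h.work
    have h2 := h.zw
    simp only [a2, if_neg a3, Dat.src, a0, if_true, OfNat.ofNat_ne_zero, if_false] at h0 h1 h2
    have hz : z = D.U 0 (B true none) := by rw [hz4, h2, complete hO hC h0 hM.suc]
    subst hz
    refine ⟨by simpa only [a1, cfB_top] using h.coef, by simp only; omega, by simp only; omega,
      by simp only [b1, cfB_top], by simpa [b0] using h1, by simpa only [b2, Bool.not_true] using h0, ?_,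
      by simp [b0], fun _ => (valid_iff hO hC h1).1 hz2, fun _ => flag_zero hO hC hM h1 hz2 hz3⟩
    simp only [if_neg b3, Dat.src, b0, OfNat.ofNat_ne_zero, if_false, Nat.reduceEqDiff]
    exact U_inj hC (hz5.trans (complete hO hC h1 hM.pre).symm)
  · rintro h ⟨z, hz1, -, -, hz4, hz5⟩
    have h0 := main_top h (by simp only; omega)
    have h1 := h.work
    have h2 := h.zw
    simp only [b2, if_neg b3, Dat.src, b0, OfNat.ofNat_ne_zero, if_false, Nat.reduceEqDiff]
      at h0 h1 h2
    have hz : z = D.U 0 (B true none) := by rw [hz5, h2, complete hO hC h0 hM.pre]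
    subst hz
    refine ⟨by simpa only [b1, cfB_top] using h.coef, by simp only; omega, by simp only; omega,
      by simp only [a1, cfB_top], by simpa [a0] using h1, by simpa only [a2, Bool.not_true] using h0, ?_,
      by simp [a0], fun _ => (valid_iff hO hC h1).1 hz1, by simp [a0]⟩
    simp only [if_neg a3, Dat.src, a0, OfNat.ofNat_ne_zero, if_false, if_true]
    exact U_inj hC (hz4.trans (complete hO hC h1 hM.suc).symm)

/-! ### Successor and predecessor in the different phases -/

omit hO hC hM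

theorem nxt_up {σ : D.St} (h1 : σ.N % 4 ≠ 1) (h3 : σ.N % 4 ≠ 3) (h : σ.N / 4 < 2 * D.top) :
    D.Anxt np σ = up np σ := by
  simp only [Dat.Anxt, up, Dat.nxtN, Dat.mvN, if_neg h1, if_neg h3, if_pos h]

theorem nxt_down {σ : D.St} (h3 : σ.N % 4 = 3) (h : σ.N / 4 ≠ 0) : D.Anxt np σ = down np σ := by
  simp only [Dat.Anxt, down, Dat.nxtN, Dat.mvN, if_neg (show σ.N % 4 ≠ 1 by omega), if_pos h3,
    if_neg h]

theorem prv_up {σ : D.St} (h3 : σ.N % 4 = 3) (h : σ.N / 4 < 2 * D.top) :
    D.Aprv np σ = up np σ := by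
  simp only [Dat.Aprv, up, Dat.prvN, Dat.mvP, if_neg (show σ.N % 4 ≠ 1 by omega), if_pos h3,
    if_pos h]

theorem prv_down {σ : D.St} (h1 : σ.N % 4 ≠ 1) (h3 : σ.N % 4 ≠ 3) (h : σ.N / 4 ≠ 0) :
    D.Aprv np σ = down np σ := by
  simp only [Dat.Aprv, down, Dat.prvN, Dat.mvP, if_neg h1, if_neg h3, if_neg h]

theorem mvB_zero (σ : D.St) : D.mvB np 0 σ = σ.B := rfl

theorem mvB_one (σ : D.St) : D.mvB np 1 σ = fun β => σ.B (!β) := rfl

variable (c : F) (B : Bool → D.Bk)

theorem nxt_I : D.Anxt np ⟨8 * D.top, c, B⟩ = ⟨1, 0, fun β => B (!β)⟩ := by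
  have e0 : 8 * D.top % 4 = 0 := by omega
  have e1 : ¬ 8 * D.top / 4 < 2 * D.top := by omega
  simp [Dat.Anxt, Dat.nxtN, Dat.mvN, e0, e1, newc, mvB_one]

theorem nxt_J : D.Anxt np ⟨1, c, B⟩ = ⟨2, 0, B⟩ := by
  simp [Dat.Anxt, Dat.nxtN, Dat.mvN, newc, mvB_zero]

theorem nxt_A : D.Anxt np ⟨8 * D.top + 2, c, B⟩ = ⟨8 * D.top + 3, 0, fun β => B (!β)⟩ := by
  have e0 : (8 * D.top + 2) % 4 = 2 := by omega
  have e1 : ¬ (8 * D.top + 2) / 4 < 2 * D.top := by omega
  simp [Dat.Anxt, Dat.nxtN, Dat.mvN, e0, e1, newc, mvB_one]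

theorem nxt_B : D.Anxt np ⟨3, c, B⟩ = ⟨2, 0, B⟩ := by
  simp [Dat.Anxt, Dat.nxtN, Dat.mvN, newc, mvB_zero]

theorem prv_J : D.Aprv np ⟨1, c, B⟩ = ⟨8 * D.top, 0, fun β => B (!β)⟩ := by
  simp [Dat.Aprv, Dat.prvN, Dat.mvP, newc, mvB_one]

theorem prv_B : D.Aprv np ⟨8 * D.top + 3, c, B⟩ = ⟨8 * D.top + 2, 0, fun β => B (!β)⟩ := by
  have e0 : (8 * D.top + 3) % 4 = 3 := by omega
  have e1 : ¬ (8 * D.top + 3) / 4 < 2 * D.top := by omega
  simp [Dat.Aprv, Dat.prvN, Dat.mvP, e0, e1, newc, mvB_one]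

theorem prv_A1 (h : hat (D.bV np (B false) D.M.fst) 0 = 1) : D.Aprv np ⟨2, c, B⟩ = ⟨1, 0, B⟩ := by
  simp [Dat.Aprv, Dat.prvN, Dat.mvP, newc, mvB_zero, h]

theorem prv_A3 (h : hat (D.bV np (B false) D.M.fst) 0 ≠ 1) : D.Aprv np ⟨2, c, B⟩ = ⟨3, 0, B⟩ := by
  simp [Dat.Aprv, Dat.prvN, Dat.mvP, newc, mvB_zero, h]

end Abs

open Abs

theorem absStmt (hO : OpStmt) : AbsStmt := by
  intro m F _ D pub hC hM
  have ht := top_pos hM
  refine ⟨?_, fun σ h h0 => ?_, ?_, ?_⟩
  · have hb : D.BankOk (D.npub pub) 0 0 := fun i k => by rw [Nat.zero_sub, tgt_bot]; rfl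
    exact ⟨by simp, by simp, by simp [cfB_bot], by simpa using hb, by simpa using hb, by simp,
      by simp, by simp, by simp⟩
  · have h1 := h.coef
    have h2 := h.main
    have h3 := h.work
    have h4 := h.zw
    have h5 := h.zm
    simp only [h0, Nat.zero_div, Nat.zero_mod, if_true, cfB_bot, Nat.zero_le, zero_ne_one,
      if_false, forall_true_left, Nat.reduceAdd, Nat.reduceDiv] at h1 h2 h3 h4 h5
    refine ⟨h1, funext fun β => ?_⟩
    cases β
    · exact bank_zero h2 h5
    · exact bank_zero h3 h4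
  · rintro ⟨N, c, B⟩ h
    have hle : N / 4 ≤ 2 * D.top := h.le
    have hh : N % 4 = 1 → N / 4 = 0 := h.hand
    by_cases h1 : N % 4 = 1
    · obtain rfl : N = 1 := by omega
      obtain ⟨rfl, h2⟩ := link_bot h (p' := 2) one_pos (by omega) two_pos (by omega) (by omega)
        (by omega)
      have h3 := flag_one hO hC hM (main_top h (by simp)) (by
        rw [h.zm (by simp), if_pos h1]
        exact U_npub hC 0)
      rw [nxt_J]
      exact Or.inl ⟨h2, prv_A1 _ _ (by rw [h3, hat_one hC]), by simp⟩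
    by_cases h3 : N % 4 = 3
    · by_cases h0 : N / 4 = 0
      · obtain rfl : N = 3 := by omega
        obtain ⟨rfl, h2⟩ := link_bot h (p' := 2) (by omega) (by omega) two_pos (by omega)
          (by omega) (by omega)
        rw [nxt_B]
        refine Or.inl ⟨h2, prv_A3 _ _ ?_, by simp⟩
        rw [show D.bV _ (B false) _ = 0 from h.flag rfl, hat_zero]
        exact zero_ne_one
      · obtain ⟨h4, h5⟩ := down_link h h1 h0
        have hN : (down (D.npub pub) (⟨N, c, B⟩ : D.St)).N = N - 4 := rfl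
        rw [nxt_down h3 h0]
        exact Or.inl ⟨h4, (prv_up (by omega) (by omega)).trans h5, by omega⟩
    by_cases hlt : N / 4 < 2 * D.top
    · obtain ⟨h4, h5⟩ := up_link h h1 hlt
      have hN : (up (D.npub pub) (⟨N, c, B⟩ : D.St)).N = N + 4 := rfl
      rw [nxt_up h1 h3 hlt]
      exact Or.inl ⟨h4, (prv_down (by omega) (by omega) (by omega)).trans h5, by omega⟩
    by_cases h0 : N % 4 = 0
    · obtain rfl : N = 8 * D.top := by omega
      obtain ⟨rfl, h2⟩ := (link_IJ hO hC hM (c' := 0)).1 h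
      rw [nxt_I]
      exact Or.inl ⟨h2, by simp only [prv_J, Bool.not_not], by simp⟩
    · obtain rfl : N = 8 * D.top + 2 := by omega
      by_cases hs : ∃ z, D.M.Step pub (D.U 0 (B false none)) z
      · obtain ⟨rfl, h2⟩ := (link_AB hO hC hM).1 h hs
        rw [nxt_A]
        exact Or.inl ⟨h2, by simp only [prv_B, Bool.not_not], by simp⟩
      · exact Or.inr ⟨main_valid hO hC h h0, Or.inl hs⟩
  · rintro ⟨N, c, B⟩ h hN0
    have hN0' : N ≠ 0 := hN0
    have hle : N / 4 ≤ 2 * D.top := h.le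
    have hh : N % 4 = 1 → N / 4 = 0 := h.hand
    by_cases h1 : N % 4 = 1
    · obtain rfl : N = 1 := by omega
      obtain ⟨rfl, h2⟩ := (link_IJ hO hC hM (c := 0)).2 h
      rw [prv_J]
      exact Or.inl ⟨h2, by simp only [nxt_I, Bool.not_not]⟩
    by_cases h3 : N % 4 = 3
    · by_cases hlt : N / 4 < 2 * D.top
      · obtain ⟨h4, h5⟩ := up_link h h1 hlt
        have hN : (up (D.npub pub) (⟨N, c, B⟩ : D.St)).N = N + 4 := rfl
        rw [prv_up h3 hlt]
        exact Or.inl ⟨h4, (nxt_down (by omega) (by omega)).trans h5⟩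
      · obtain rfl : N = 8 * D.top + 3 := by omega
        by_cases hs : ∃ z, D.M.Step pub z (D.U 0 (B false none))
        · obtain ⟨rfl, h2⟩ := (link_AB hO hC hM).2 h hs
          rw [prv_B]
          exact Or.inl ⟨h2, by simp only [nxt_A, Bool.not_not]⟩
        · refine Or.inr ⟨main_valid hO hC h (by simp only; omega), Or.inr ⟨fun h4 => ?_, hs⟩⟩
          have h5 := flag_one hO hC hM (main_top h (by simp only; omega)) h4
          rw [h.flag h3] at h5
          exact zero_ne_one h5
    by_cases h0 : N / 4 = 0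
    · obtain rfl : N = 2 := by omega
      have h4 := main_top h (by simp)
      by_cases hz : D.U 0 (B false none) = pub 0
      · obtain ⟨rfl, h2⟩ := link_bot h (p' := 1) two_pos (by omega) one_pos (by omega)
          (fun _ => U_inj hC (hz.trans (U_npub hC 0).symm)) (by omega)
        rw [prv_A1 _ _ (by rw [show D.bV _ (B false) _ = 1 from flag_one hO hC hM h4 hz,
          hat_one hC])]
        exact Or.inl ⟨h2, nxt_J _ _⟩
      · have h5 : D.bV _ (B false) _ = 0 :=
          flag_zero hO hC hM h4 (main_valid hO hC h (by simp)) hz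
        obtain ⟨rfl, h2⟩ := link_bot h (p' := 3) two_pos (by omega) (by omega) (by omega)
          (by omega) fun _ => h5
        rw [prv_A3 _ _ (by rw [h5, hat_zero]; exact zero_ne_one)]
        exact Or.inl ⟨h2, nxt_B _ _⟩
    · obtain ⟨h4, h5⟩ := down_link h h1 h0
      have hN : (down (D.npub pub) (⟨N, c, B⟩ : D.St)).N = N - 4 := rfl
      rw [prv_down h1 h3 h0]
      exact Or.inl ⟨h4, (nxt_up (by omega) (by omega) (by omega)).trans h5⟩

end Vale.Agent.P330.Outer.GMD
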