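import Vale.Agent.P330.Outer.GM.PTLem

/-!
P330, outer system: the machine with control is polynomial time.
-/

set_option linter.unusedSectionVars false

namespace Vale.Agent.P330.Outer.GMD

open Vale.Agent.Lib.PolyTime hiding C P
open Vale.Agent.Lib.Dep
open Vale.Agent.P330.Bohr
open Polynomial

namespace PTP

variable {X : Type} [Enc X] {m p : X → ℕ} [∀ x, Fact (p x).Prime]
  {D : ∀ x, Dat (m x) (ZMod (p x))}

theorem dpt_uAll {r : ∀ x, Fin (m x) → ZMod (p x)} {f : ∀ x, Gam (m x) → ZMod (p x)} (hp : DPT p)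
    (hm : DPT m) (bm : PBd m) (hΓ : DPT fun x => elems (Gam (m x)))
    (hr : DPT fun y : Σ x, Fin (m x) => r y.1 y.2) (hf : DPT fun y : Σ x, Gam (m x) => f y.1 y.2) :
    DPT fun x => Vec.of (uAll (r x) (f x)) := by
  obtain ⟨b, hb, h1⟩ := (PTRing.zmod hp).sz.pbd (PBd.const 0)
  have hr' := DPT.fn r hr
  refine dpt_foldl_bdd (T := fun x => Vec (Gam (m x)) (ZMod (p x)))
    (f := fun x y ω => Vec.of fun ε => (1 + r x ω) / 2 * y.get ε + (1 - r x ω) / 2 * y.get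
      (Vec.of fun i => ε.get i + if i = ω then 1 else 0))
    (exists_esize_vec_le hΓ ⟨b, hb, fun a y => h1 a y (ht_eq_zero y).le⟩) (dpt_finRange hm bm)
    (dpt_vecOf hΓ hf) (dpt_vecOf (hΓ.comp DPT.id.sfst) ?_)
  refine DPT.add (by fun_prop) (DPT.mul (by fun_prop) (by fun_prop) ?_)
    (DPT.mul (by fun_prop) (by fun_prop) ?_)
  · exact dpt_vecGet (hΓ.comp DPT.id.sfst.sfst) (by fun_prop) DPT.ssnd
  · exact dpt_vecGet (hΓ.comp DPT.id.sfst.sfst) (by fun_prop) (by fun_prop)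

theorem dpt_gpub {pub : ∀ x, ℕ → Gam (m x) → ZMod (p x)} (h : DP D)
    (hΓ : DPT fun x => elems (Gam (m x)))
    (hpub : DPT fun y : Σ x, ℕ × Gam (m x) => pub y.1 y.2.1 y.2.2) :
    DPT fun y : Σ x, ℕ × Gam (m x) => (D y.1).gpub (pub y.1) y.2.1 y.2.2 := by
  have := h.hm
  have := h.bm
  have := h.hp
  have hpub' := DPT.fn2 pub hpub
  have h0 : DPT fun x => (0 : Gam (m x)) := dpt_vecMk (by fun_prop) (DPT.const (0 : ZMod 2))
  have h1 : DPT fun y : Σ x, ℕ × Gam (m x) =>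
      Vec.of (uAll (fun ω => ((D y.1).r 0 ω)⁻¹) (pub y.1 (y.2.1 - 1))) :=
    dpt_uAll (by fun_prop) (by fun_prop) (by fun_prop) (hΓ.comp DPT.id.sfst) (by fun_prop)
      (by fun_prop)
  have h2 := dpt_vecGet (hΓ.comp DPT.id.sfst) h1 DPT.ssnd.snd
  have h3 : DPT fun y : Σ x, ℕ × Gam (m x) => dlt (m y.1) (ZMod (p y.1)) y.2.2 := by
    unfold dlt
    exact DPT.ite (DPr.eq DPT.ssnd.snd (h0.comp DPT.id.sfst)) (by fun_prop) (by fun_prop)
  refine (DPT.ite (p := fun y => y.2.1 = 0) (by fun_prop) h3 h2).congr fun y => ?_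
  unfold Dat.gpub
  split_ifs <;> rfl

theorem dpt_vmSt {w : ∀ x, Vec (Fin (D x).gm.k) (Vec (Gam (m x)) (ZMod (p x)))} (h : DP D)
    (hΓ : DPT fun x => elems (Gam (m x))) (hw : DPT w) :
    DPT fun x => Vec.of ((D x).vmSt (w x)) := by
  have := h.hm
  have := h.bm
  have h1 : DPT fun x => elems (Fin (D x).gm.k) :=
    dpt_elems_fin (n := fun x => Fintype.card (Rg (m x) (D x).M.n)) (by fun_prop) (by fun_prop)
  have h2 : DPT fun x => eidx ((false, none) : Rg (m x) (D x).M.n) := by fun_prop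
  have h3 : DPT fun x => w x ⟨eidx ((false, none) : Rg (m x) (D x).M.n), eidx_lt _⟩ :=
    dpt_vecAt h1 hw (dpt_finMk h2)
  exact dpt_uAll h.hp h.hm h.bm hΓ (by fun_prop) (dpt_vecEnt hΓ h3)

section Fields

variable {κ : ∀ x, Vec (Fin ((D x).L + 1)) (ZMod (p x))} {i : X → ℕ} {ε : ∀ x, Gam (m x)}
  {l : ∀ x, List (ZMod (p x))}

theorem dpt_gk (h : DP D) : DPT (fun x => (D x).gm.k) ∧ PBd fun x => (D x).gm.k := by
  have := h.hm
  have := h.bm
  unfold Dat.gm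
  exact ⟨by fun_prop, by fun_prop⟩

theorem dpt_gn (h : DP D) : DPT (fun x => (D x).gm.n) ∧ PBd fun x => (D x).gm.n := by
  have := h.hm
  have := h.bm
  unfold Dat.gm
  exact ⟨by fun_prop, by fun_prop⟩

theorem dpt_gins (h : DP D) (hκ : DPT κ) (hi : DPT i) : DPT fun x => (D x).gm.ins (κ x) (i x) := by
  have := h.hm
  have := h.bm
  have := h.hp
  have h1 : DPT fun x => (D x).tins (decN (κ x)) ((κ x).get 0) (lev (m x) (D x).M.n (i x))
    (slt (m x) (D x).M.n (i x)) := by fun_prop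
  exact dpt_tmap (φ := fun x => adG (lev (m x) (D x).M.n (i x))) (by fun_prop) DPT.id h1

theorem dpt_gsucR (h : DP D) (hκ : DPT κ) (hi : DPT i) :
    DPT fun x => (D x).gm.sucR (κ x) (i x) := by
  have := h.hm
  have := h.bm
  have := h.hp
  unfold Dat.gm
  fun_prop

theorem dpt_gpreR (h : DP D) (hκ : DPT κ) (hi : DPT i) :
    DPT fun x => (D x).gm.preR (κ x) (i x) := by
  have := h.hm
  have := h.bm
  have := h.hp
  unfold Dat.gm
  fun_prop

theorem dpt_gzero (h : DP D) (hκ : DPT κ) (hi : DPT i) :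
    DPT fun x => (D x).gm.zero (κ x) (i x) := by
  have := h.hm
  have := h.bm
  have := h.hp
  unfold Dat.gm
  fun_prop

theorem dpt_grt (h : DP D) (hκ : DPT κ) (hε : DPT ε) (hl : DPT l) :
    DPT fun x => (D x).gm.rt (κ x) (ε x) (l x) := by
  unfold Dat.gm
  fun_prop

theorem dpt_gnxt (h : DP D) (hκ : DPT κ) (hε : DPT ε) (hl : DPT l) :
    DPT fun x => (D x).gm.nxt (κ x) (ε x) (l x) := by
  have := h.hm
  have := h.bm
  have := h.hp
  unfold Dat.gm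
  fun_prop

theorem dpt_gprv (h : DP D) (hκ : DPT κ) (hε : DPT ε) (hl : DPT l) :
    DPT fun x => (D x).gm.prv (κ x) (ε x) (l x) := by
  have := h.hm
  have := h.bm
  have := h.hp
  unfold Dat.gm
  fun_prop

theorem dpt_gst (h : DP D) : DPT fun x => (D x).gm.st := by
  have := h.hp
  unfold Dat.gm
  fun_prop

end Fields

end PTP

open PTP in
theorem ptStmt : PTStmt := by
  intro π D pub dec hD hpub hdec hok hend
  have h : DP D := ⟨π.ptm, π.pbm, π.ptp, hD.ptn, hD.pbn, hD.ins, hD.zero, hD.suc, hD.pre, hD.fst,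
    hD.a, hD.t, hD.r⟩
  have hΓ : DPT fun I => elems (Gam (π.m (π.par I))) :=
    dpt_elems_vec (dpt_elems_fin (π.ptm.comp π.ptPar) (pbd_comp π.pbm π.ptPar)) (DPT.const _)
      (π.ql.pbd.mono fun I => by simp [length_elems])
  exact ⟨by fun_prop, by fun_prop, (dpt_gk h).1, (dpt_gk h).2, (dpt_gn h).1, (dpt_gn h).2,
    dpt_gins (h.comp DPT.id.sfst) DPT.ssnd.fst DPT.ssnd.snd,
    dpt_gsucR (h.comp DPT.id.sfst) DPT.ssnd.fst DPT.ssnd.snd,
    dpt_gpreR (h.comp DPT.id.sfst) DPT.ssnd.fst DPT.ssnd.snd,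
    dpt_gzero (h.comp DPT.id.sfst) DPT.ssnd.fst DPT.ssnd.snd,
    dpt_grt (h.comp DPT.id.sfst) DPT.ssnd.fst DPT.ssnd.snd.fst DPT.ssnd.snd.snd,
    dpt_gnxt (h.comp DPT.id.sfst) DPT.ssnd.fst DPT.ssnd.snd.fst DPT.ssnd.snd.snd,
    dpt_gprv (h.comp DPT.id.sfst) DPT.ssnd.fst DPT.ssnd.snd.fst DPT.ssnd.snd.snd, dpt_gst h,
    dpt_gpub (h.comp π.ptPar) hΓ hpub, DPT.fn dec hdec DPT.id.sfst
      (dpt_vmSt ((h.comp π.ptPar).comp DPT.id.sfst) (hΓ.comp DPT.id.sfst) DPT.ssnd.snd), hok, hend⟩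

end Vale.Agent.P330.Outer.GMD
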