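import Vale.Agent.P330.Outer.GM.Reg

/-!
P330, outer system: the machine with control realises the abstract machine.
-/

namespace Vale.Agent.P330.Outer.GMD

open Vale.Agent.P330.Bohr

variable {m : ℕ} {F : Type} [Field F]

theorem fI_le {n q : ℕ} (h : q ≤ n * 4 ^ m) : fI m q ≤ n :=
  Nat.div_le_of_le_mul (by rwa [mul_comm])

namespace Dat

variable (D : Dat m F) (pub : ℕ → Gam m → F) (κ : Vec (Fin (D.L + 1)) F)
  (x : Fin D.gm.k → Gam m → F)

omit [Field F] in
theorem fac_top (s : Bool) : D.fac s D.M.n = none := by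
  unfold fac
  rcases D.M.ins D.M.n with c | c
  · rfl
  · simp

theorem tgt_zero (x y : Gam m → F) : D.tgt x y 0 = 0 := by
  funext k ε
  simp [tgt]

theorem tgt_zero_left (y : Gam m → F) (σ : ℕ) : D.tgt 0 y σ = 0 := by
  funext k ε
  simp [tgt, cf]

theorem U_gsum_zero (hD : D.Cv) (b : ℕ) (τ : F) : D.U b (gsum 0 τ) = 0 := by
  have h : gsum (0 : Fin (m + 1) → Gam m → F) τ = 0 := by
    funext ε
    simp [gsum]
  rw [h, U, uAll_zero hD.two]

/-- the number of the pairs of frequencies which are done in the bank `β` -/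
def stage (N : ℕ) (β : Bool) : ℕ := if β then (N + 4) / 8 else if N % 4 = 0 then 0 else D.top

/-- the prescribed family of the product `i` of the bank `β` -/
noncomputable def goal (σ : D.St) (β : Bool) (i : ℕ) : Fin (m + 1) → Gam m → F :=
  D.tgt (D.facV (D.npub pub) (σ.B β) false i) (D.facV (D.npub pub) (σ.B β) true i)
    (D.stage σ.N β - i * 4 ^ m)

variable (hO : OpStmt) (hD : D.Cv)
include hO hD

theorem rdc_eq (ε : Gam m) {q e : ℕ} (hq : q ≤ D.top)
    (he : (e = 0 ∧ q = decN κ / 8) ∨ (e = m + 2 ∧ q = oth (decN κ))) :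
    D.rdc q e ε (D.look (D.gm.roots (D.gpub pub) κ x ε)) =
      D.cfB (D.npub pub) ((D.toSt κ x).B true) q := by
  have h1 : (if e = m + 2 then 0 else e) = 0 := by split_ifs <;> omega
  have h2 : (if e = m + 2 then oth (decN κ) else decN κ / 8) = q := by split_ifs <;> omega
  rw [rdc, look_oX, look_oX, D.R_oX pub κ x _ _ (by decide) (fI_le hq) le_rfl (by omega),
    D.R_oX pub κ x _ _ (by decide) (fI_le hq) le_rfl (by omega), h1, h2, if_neg (lt_irrefl _)]
  exact congrArg₂ (· * ·) ((hO m F D hD).2.1 _ _ ε) ((hO m F D hD).2.1 _ _ ε)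

theorem look_full (ε : Gam m) (β : Bool) (s : Bool) {i b : ℕ} (hi : i ≤ D.M.n)
    (hb : b < 8 * m + 1) :
    D.look (D.gm.roots (D.gpub pub) κ x ε) (oX β (if s then 1 else 0) i b (m + 1)) =
      D.U b (D.facV (D.npub pub) ((D.toSt κ x).B β) s i) ε := by
  rw [look_oX, D.R_oX pub κ x _ _ (by cases s <;> decide) hi hb.le (by omega), if_pos hb,
    if_neg (show ¬ m + 1 = m + 2 by omega), (hO m F D hD).1]
  cases s <;> rfl

omit hO hD in
theorem look_part (ε : Gam m) (β : Bool) (s : Bool) {i b e : ℕ} (hi : i ≤ D.M.n)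
    (hb : b < 8 * m + 1) (he : e ≤ m) :
    D.look (D.gm.roots (D.gpub pub) κ x ε) (oX β (if s then 1 else 0) i b e) =
      opx (D.r b) e (fq m s (decN κ / 8)).testBit
        (D.facV (D.npub pub) ((D.toSt κ x).B β) s i) ε := by
  rw [look_oX, D.R_oX pub κ x _ _ (by cases s <;> decide) hi hb.le (by omega), if_pos hb,
    if_neg (show ¬ e = m + 2 by omega), if_neg (show ¬ e = m + 2 by omega)]
  cases s <;> rfl

theorem look_g (ε : Gam m) (β : Bool) (i : Fin (D.M.n + 1)) {b : ℕ} (hb : b < 8 * m + 1) :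
    D.look (D.gm.roots (D.gpub pub) κ x ε) (oX β 2 i b (m + 1)) =
      D.U b (gsum (fun k => (D.toSt κ x).B β (some (i, k))) (D.t b)) ε := by
  obtain ⟨bit, h⟩ := D.R_oG pub κ x β i hb
  rw [look_oX, h, (hO m F D hD).1]

theorem rhs_eq (ε : Gam m) (β : Bool) {i b : ℕ} (hi : i ≤ D.M.n) (hb : b < 8 * m + 1) :
    D.rhs (decN κ) β i b (D.look (D.gm.roots (D.gpub pub) κ x ε)) =
      D.U b (gsum (D.goal pub (D.toSt κ x) β i) (D.t b)) ε := by
  have f0 := D.look_full pub κ x hO hD ε β false hi hb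
  have f1 := D.look_full pub κ x hO hD ε β true hi hb
  have p0 := fun e he => D.look_part pub κ x ε β false (e := e) hi hb he
  have p1 := fun e he => D.look_part pub κ x ε β true (e := e) hi hb he
  simp only [Bool.false_eq_true, if_false, if_true] at f0 f1 p0 p1
  have hN : (D.toSt κ x).N = decN κ := rfl
  have h4 : 0 < 4 ^ m := by positivity
  have hdm := Nat.div_add_mod (decN κ / 8) (4 ^ m)
  have hml := Nat.mod_lt (decN κ / 8) h4
  rw [rhs, goal, stage, hN]
  cases β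
  · simp only [Bool.false_eq_true, if_false, false_and]
    by_cases h0 : decN κ % 4 = 0
    · rw [if_neg (not_not.2 h0), if_pos h0, Nat.zero_sub, tgt_zero, D.U_gsum_zero hD]
      rfl
    · rw [if_pos h0, if_neg h0, f0, f1]
      rcases hi.lt_or_eq with hi | rfl
      · refine ((hO m F D hD).2.2.2.2.1 b hb _ _ _ ε ?_).symm
        have := Nat.mul_le_mul_right (4 ^ m) (Nat.succ_le_of_lt hi)
        rw [Nat.succ_mul] at this
        unfold top
        omega
      · rw [facV, fac_top, Option.elim_none, tgt_zero_left, D.U_gsum_zero hD, U, uAll_zero hD.two]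
        simp
  · simp only [if_true, true_and]
    rcases lt_trichotomy i (fI m (decN κ / 8)) with h | h | h
    · rw [if_pos h, f0, f1]
      refine ((hO m F D hD).2.2.2.2.1 b hb _ _ _ ε ?_).symm
      have := Nat.mul_le_mul_left (4 ^ m) (Nat.succ_le_of_lt h)
      rw [Nat.mul_succ, fI, mul_comm _ i] at this
      omega
    · rw [if_neg (by omega), if_pos h, f1, p0 0 (Nat.zero_le _), p1 0 (Nat.zero_le _),
        Finset.sum_congr rfl fun (ω : Fin m) _ => p0 (ω + 1) ω.2,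
        Finset.sum_congr rfl fun (ω : Fin m) _ => p1 (ω + 1) ω.2]
      have h1 : (decN κ + 4) / 8 - i * 4 ^ m =
          decN κ / 8 % 4 ^ m + if decide (decN κ / 4 % 2 = 1) then 1 else 0 := by
        rw [h, fI, mul_comm]
        split_ifs with h2 <;> simp only [decide_eq_true_eq] at h2 <;> omega
      rw [h1, (hO m F D hD).2.2.2.2.2.1 b hb, part]
      simp only [decide_eq_true_eq]
    · have h1 : (decN κ + 4) / 8 - i * 4 ^ m = 0 := by
        have := Nat.mul_le_mul_left (4 ^ m) (Nat.succ_le_of_lt h)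
        rw [Nat.mul_succ, fI, mul_comm _ i] at this
        omega
      rw [if_neg (by omega), if_neg (by omega), h1, tgt_zero, D.U_gsum_zero hD]
      rfl

theorem rt_iff (ε : Gam m) : D.gm.rt κ ε (D.gm.roots (D.gpub pub) κ x ε) = true ↔
    (κ = encC D.L (decN κ) (κ.get 0) ∧ decN κ / 4 ≤ 2 * D.top ∧
      (decN κ % 4 = 1 → decN κ / 4 = 0) ∧
      κ.get 0 = D.cfB (D.npub pub) ((D.toSt κ x).B true) (decN κ / 8)) ∧
    ∀ (β : Bool) (i : Fin (D.M.n + 1)), ∀ b < 8 * m + 1,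
      D.U b (gsum (fun k => (D.toSt κ x).B β (some (i, k))) (D.t b)) ε =
        D.U b (gsum (D.goal pub (D.toSt κ x) β i) (D.t b)) ε := by
  classical
  change decide (D.trt κ ε _) = true ↔ _
  rw [decide_eq_true_eq, trt, and_assoc, and_assoc, and_assoc]
  refine and_congr_right fun _ => and_congr_right fun h => and_congr_right fun _ => ?_
  rw [D.rdc_eq pub κ x hO hD ε (by omega) (Or.inl ⟨rfl, rfl⟩)]
  refine and_congr_right fun _ => forall₂_congr fun β i => ⟨fun h b hb => ?_, fun h b => ?_⟩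
  · have := h ⟨b, hb⟩
    rwa [D.look_g pub κ x hO hD ε β i hb, D.rhs_eq pub κ x hO hD ε β (Nat.le_of_lt_succ i.2) hb]
      at this
  · rw [D.look_g pub κ x hO hD ε β i b.2, D.rhs_eq pub κ x hO hD ε β (Nat.le_of_lt_succ i.2) b.2]
    exact h b b.2

theorem goal_of_frac
    (h : frac (fun ε => D.gm.rt κ ε (D.gm.roots (D.gpub pub) κ x ε) = false) < 1 / 2)
    (β : Bool) (i : Fin (D.M.n + 1)) :
    (fun k => (D.toSt κ x).B β (some (i, k))) = D.goal pub (D.toSt κ x) β i := by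
  refine (hO m F D hD).2.2.2.2.2.2 _ _ ((frac_mono fun ε ⟨b, hb, hne⟩ => ?_).trans_lt h)
  by_contra h1
  exact hne (((D.rt_iff pub κ x hO hD ε).1 (by simpa using h1)).2 β i b hb)

theorem robust
    (h : frac (fun ε => D.gm.rt κ ε (D.gm.roots (D.gpub pub) κ x ε) = false) < 1 / 2)
    (ε : Gam m) : D.gm.rt κ ε (D.gm.roots (D.gpub pub) κ x ε) = true := by
  obtain ⟨ε0, h0⟩ := exists_not_of_frac_lt_one (h.trans (by norm_num))
  refine (D.rt_iff pub κ x hO hD ε).2
    ⟨((D.rt_iff pub κ x hO hD ε0).1 (by simpa using h0)).1, fun β i b _ => ?_⟩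
  rw [D.goal_of_frac pub κ x hO hD h β i]

theorem rt_all_iff : (∀ ε, D.gm.rt κ ε (D.gm.roots (D.gpub pub) κ x ε) = true) ↔
    (κ = encC D.L (decN κ) (κ.get 0) ∧ decN κ / 4 ≤ 2 * D.top ∧
      (decN κ % 4 = 1 → decN κ / 4 = 0) ∧
      κ.get 0 = D.cfB (D.npub pub) ((D.toSt κ x).B true) (decN κ / 8)) ∧
    ∀ β, D.BankOk (D.npub pub) ((D.toSt κ x).B β) (D.stage (decN κ) β) := by
  refine ⟨fun h => ⟨((D.rt_iff pub κ x hO hD 0).1 (h 0)).1, fun β i k => ?_⟩, fun h ε => ?_⟩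
  · refine congrFun (D.goal_of_frac pub κ x hO hD ?_ β i) k
    rw [frac_eq_zero fun ε => by simp [h ε]]
    norm_num
  · refine (D.rt_iff pub κ x hO hD ε).2 ⟨h.1, fun β i b _ => ?_⟩
    rw [show (fun k => (D.toSt κ x).B β (some (i, k))) = D.goal pub (D.toSt κ x) β i from
      funext (h.2 β i)]

omit hO hD in
theorem zero_iff : (∀ i < D.gm.n, D.gm.zero κ i = true → D.gm.reg (D.gpub pub) κ x i = 0) ↔
    ∀ l s, D.tzero (decN κ) l s → D.R pub κ x (.inr (l, s)) = 0 := by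
  classical
  refine ⟨fun h l s hz => h _ (ad_inr_lt s ?_) ?_, fun h i _ hz => ?_⟩
  · unfold L
    rcases hz with ⟨_, h1, _⟩ | ⟨h1, _⟩ <;> omega
  · change decide (_ ∧ _) = true
    rw [decide_eq_true_eq, lev_ad, slt_ad, ad_inr]
    exact ⟨by omega, hz⟩
  · change decide (_ ∧ _) = true at hz
    rw [decide_eq_true_eq] at hz
    have := h _ _ hz.2
    rwa [R, ad_lev_slt hz.1] at this

omit hO hD in
theorem tzero_iff (hM : D.M.Ok pub) :
    (∀ l s, D.tzero (decN κ) l s → D.R pub κ x (.inr (l, s)) = 0) ↔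
    ((D.toSt κ x).B true none =
        if decN κ / 4 = 0 then 0 else D.src (D.npub pub) (decN κ) ((D.toSt κ x).B false)) ∧
      (decN κ % 4 ≤ 1 →
        (D.toSt κ x).B false none = if decN κ % 4 = 1 then D.npub pub 0 else 0) ∧
      (decN κ % 4 ≠ 0 → ∀ i < D.M.n, D.M.zero i = true →
        D.bV (D.npub pub) ((D.toSt κ x).B false) i = 0) ∧
      (decN κ % 4 = 3 → D.bV (D.npub pub) ((D.toSt κ x).B false) D.M.fst = 0) := by
  have z1 := D.R_z pub κ x hM true
  have z0 := D.R_z pub κ x hM false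
  simp only [Bool.false_eq_true, if_false, if_true] at z0 z1
  refine ⟨fun h => ⟨?_, fun h1 => ?_, fun h1 i hi hz => ?_, fun h1 => ?_⟩, fun h l s hz => ?_⟩
  · have := h _ _ (Or.inr ⟨rfl, Or.inl rfl⟩)
    rw [z1] at this
    exact funext fun ε => sub_eq_zero.1 (congrFun this ε)
  · have := h _ _ (Or.inr ⟨rfl, Or.inr ⟨rfl, h1⟩⟩)
    rw [z0] at this
    exact funext fun ε => sub_eq_zero.1 (congrFun this ε)
  · rw [← D.R_aV pub κ x false i hi]
    exact h _ _ (Or.inl ⟨rfl, hi, Or.inl ⟨h1, hz⟩⟩)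
  · rw [← D.R_aV pub κ x false _ hM.fst]
    exact h _ _ (Or.inl ⟨rfl, hM.fst, Or.inr ⟨h1, rfl⟩⟩)
  · rcases hz with ⟨rfl, hl, hz⟩ | ⟨rfl, rfl | ⟨rfl, h1⟩⟩
    · refine (D.R_aV pub κ x false l hl).trans ?_
      rcases hz with ⟨h1, h2⟩ | ⟨h1, rfl⟩
      · exact h.2.2.1 h1 l hl h2
      · exact h.2.2.2 h1
    · rw [z1]
      exact funext fun ε => sub_eq_zero.2 (congrFun h.1 ε)
    · rw [z0]
      exact funext fun ε => sub_eq_zero.2 (congrFun (h.2.1 h1) ε)

end Dat

theorem implStmt (hO : OpStmt) : ImplStmt := by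
  intro m F _ D pub hD hM κ x
  refine ⟨?_, D.robust pub κ x hO hD, fun h => ?_, fun ρ => ?_⟩
  · rw [GM.Valid, D.rt_all_iff pub κ x hO hD, D.zero_iff, D.tzero_iff pub κ x hM]
    exact ⟨fun h => ⟨h.1.1.1, h.1.1.2.1, h.1.1.2.2.1, h.1.1.2.2.2, h.1.2 false, h.1.2 true, h.2.1,
        h.2.2.1, h.2.2.2.1, h.2.2.2.2⟩,
      fun h => ⟨⟨⟨h.1, h.2.le, h.2.hand, h.2.coef⟩, fun β => by
        cases β
        · exact h.2.main
        · exact h.2.work⟩, h.2.zw, h.2.zm, h.2.zero, h.2.flag⟩⟩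
  · have h1 : oth (decN κ) ≤ D.top := by
      unfold oth
      split_ifs <;> omega
    refine ⟨fun ε => ?_, fun ε => ?_⟩
    · change encC _ _ (newc _ _ _ (D.rdc _ _ _ _)) = _
      rw [D.rdc_eq pub κ x hO hD ε h1 (Or.inr ⟨rfl, rfl⟩)]
      rfl
    · have h2 := D.look_aOut pub κ x ε (.inr 2)
      rw [D.R_flag pub κ x hM.fst, (hO m F D hD).2.2.1] at h2
      have h3 := D.rdc_eq pub κ x hO hD ε h1 (Or.inr ⟨rfl, rfl⟩)
      exact congrArg₂ (encC D.L)
        (congrArg (D.prvN (decN κ)) (@decide_eq_decide _ _ (_) (_) |>.2 (by rw [h2])))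
        (congrArg (newc (D.mvP (decN κ)) (decN κ) (κ.get 0)) h3)
  · have hχ := (D.R_chi pub κ x).trans ((hO m F D hD).2.2.2.1 _)
    refine ⟨?_, ?_⟩
    · change D.R pub κ x (aMv _ (enth _ (eidx ρ))) = _
      rw [enth_eidx, D.R_mv pub κ x hM hχ]
      rfl
    · change D.R pub κ x (aMv _ (enth _ (eidx ρ))) = _
      rw [enth_eidx, D.R_mv pub κ x hM hχ]
      rfl

end Vale.Agent.P330.Outer.GMD
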