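import Vale.Agent.P330.Outer.GM.Defs

/-!
P330, outer system: the machine with control is well formed, its ends give ends of the vector
machine, and the assembly of `GMStmt`.
-/

namespace Vale.Agent.P330.Outer.GMD

open Vale.Agent.Lib.PolyTime hiding C P
open Vale.Agent.Lib.Dep
open Vale.Agent.P330.Bohr

namespace EndP

variable {m : ℕ} {F : Type} [Field F]

theorem sum_testBit (N L : ℕ) :
    ∑ j : Fin L, (if N.testBit j then 2 ^ (j : ℕ) else 0) = N % 2 ^ L := by
  induction L with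
  | zero => simp [Nat.mod_one]
  | succ L ih =>
    rw [Fin.sum_univ_castSucc, Nat.mod_pow_succ]
    simp only [Fin.val_castSucc, Fin.val_last]
    rw [ih, Nat.testBit_eq_decide_div_mod_eq]
    rcases Nat.mod_two_eq_zero_or_one (N / 2 ^ L) with h | h <;> simp [h]

theorem get_encC (L N : ℕ) (c : F) : (encC L N c).get 0 = c := rfl

theorem decN_encC {L N : ℕ} (h : N < 2 ^ L) (c : F) : decN (encC L N c) = N := by
  classical
  refine Eq.trans ?_ ((sum_testBit N L).trans (Nat.mod_eq_of_lt h))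
  unfold decN
  rw [Fin.sum_univ_succ]
  simp only [Fin.val_zero, ne_eq, not_true_eq_false, false_and, if_false, zero_add]
  refine Finset.sum_congr rfl fun j _ => ?_
  by_cases hj : N.testBit j <;> simp [encC, Vec.get, Vec.of, hj]

variable {D : Dat m F}

theorem lt_of_valid {np : ℕ → Gam m → F} {σ : D.St} (h : D.AValid np σ) : σ.N < 2 ^ D.L := by
  have h1 := h.le
  have h2 : D.M.n + 1 ≤ 2 ^ D.M.n := Nat.lt_two_pow_self
  have h3 : 0 < 4 ^ m := by positivity
  have h4 : 2 ^ D.L = 8 * (2 ^ D.M.n * 4 ^ m) := by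
    unfold Dat.L
    rw [pow_add, pow_add, pow_mul]
    ring
  have h5 : (D.M.n + 1) * 4 ^ m ≤ 2 ^ D.M.n * 4 ^ m := Nat.mul_le_mul_right _ h2
  rw [Nat.add_mul, Nat.one_mul] at h5
  unfold Dat.top at h1
  omega

/-- the given registers which belong to an abstract state -/
noncomputable def ofSt (σ : D.St) : Fin D.gm.k → Gam m → F :=
  fun r => σ.B (enth (Rg m D.M.n) r).1 (enth (Rg m D.M.n) r).2

theorem toSt_ofSt {σ : D.St} (h : σ.N < 2 ^ D.L) : D.toSt (encC D.L σ.N σ.c) (ofSt σ) = σ := by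
  obtain ⟨N, c, B⟩ := σ
  unfold Dat.toSt ofSt
  simp only [decN_encC h, get_encC, enth_eidx]

theorem ofSt_toSt (κ : Vec (Fin (D.L + 1)) F) (x : Fin D.gm.k → Gam m → F) :
    ofSt (D.toSt κ x) = x :=
  funext fun r => congrArg x (Fin.ext (eidx_enth r.2))

theorem ad_aMv_lt (mv : ℕ) (ρ : Rg m D.M.n) : ad (aMv mv ρ) < D.gm.n := by
  have h1 : ∀ ρ : Rg m D.M.n, ad (.inl ρ : Ad m D.M.n) < D.gm.n := fun ρ =>
    (eidx_lt ρ).trans_le (Nat.le_add_right _ _)
  unfold aMv
  split_ifs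
  · exact h1 _
  · exact h1 _
  · have h2 : eidx (.inl (decide (mv = 2), ρ.2) : Sl m D.M.n) < Fintype.card (Sl m D.M.n) :=
      eidx_lt _
    have h3 : (D.M.n + 2 * m + 1 + 1) * Fintype.card (Sl m D.M.n) ≤
        D.L * Fintype.card (Sl m D.M.n) := Nat.mul_le_mul_right _ (by unfold Dat.L; omega)
    rw [Nat.add_mul _ 1, Nat.one_mul] at h3
    change Fintype.card (Rg m D.M.n) + (D.M.n + 2 * m + 1) * Fintype.card (Sl m D.M.n) +
      eidx (.inl (decide (mv = 2), ρ.2) : Sl m D.M.n) <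
      Fintype.card (Rg m D.M.n) + D.L * Fintype.card (Sl m D.M.n)
    omega
  · exact h1 _

variable {pub : ℕ → Gam m → F}

theorem valid_of (hI : ImplStmt) (hC : D.Cv) (hM : D.M.Ok pub) {σ : D.St}
    (h : D.AValid (D.npub pub) σ) : D.gm.Valid (D.gpub pub) (encC D.L σ.N σ.c) (ofSt σ) := by
  refine (hI m F D pub hC hM _ _).1.2 ⟨?_, ?_⟩
  · rw [decN_encC (lt_of_valid h), get_encC]
  · rwa [toSt_ofSt (lt_of_valid h)]

theorem step_of (hI : ImplStmt) (hC : D.Cv) (hM : D.M.Ok pub) {σ σ' : D.St}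
    (h : D.AValid (D.npub pub) σ) (h' : D.AValid (D.npub pub) σ')
    (h1 : D.Anxt (D.npub pub) σ = σ') (h2 : D.Aprv (D.npub pub) σ' = σ) (h0 : σ'.N ≠ 0) :
    D.gm.Step (D.gpub pub) (encC D.L σ.N σ.c) (ofSt σ) (encC D.L σ'.N σ'.c) (ofSt σ') := by
  have l := lt_of_valid h
  have l' := lt_of_valid h'
  obtain ⟨-, -, a1, a2⟩ := hI m F D pub hC hM (encC D.L σ.N σ.c) (ofSt σ)
  obtain ⟨-, -, b1, b2⟩ := hI m F D pub hC hM (encC D.L σ'.N σ'.c) (ofSt σ')
  rw [toSt_ofSt l, h1] at a1 a2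
  rw [toSt_ofSt l', h2] at b1 b2
  rw [decN_encC l] at a1
  rw [decN_encC l'] at b1
  refine ⟨valid_of hI hC hM h, valid_of hI hC hM h', fun he => h0 ?_, (a1 h.le).1, fun r => ?_,
    (b1 h'.le).2, fun r => ?_⟩
  · have h3 := congrArg decN he
    rwa [decN_encC l', show D.gm.st = encC D.L 0 0 from rfl,
      decN_encC (Nat.two_pow_pos _)] at h3
  · have h3 := (a2 (enth (Rg m D.M.n) r)).1
    rw [eidx_enth r.2] at h3
    exact h3.symm
  · have h3 := (b2 (enth (Rg m D.M.n) r)).2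
    rw [eidx_enth r.2] at h3
    exact h3.symm

end EndP

open EndP in
/-- GM-E: the machine is well formed, and its ends give ends of the vector machine. -/
theorem endStmt (hA : AbsStmt) (hI : ImplStmt) : EndStmt := by
  intro m F _ D pub hC hM
  obtain ⟨A1, A2, A3, A4⟩ := hA m F D pub hC hM
  have hst : decN D.gm.st = 0 := decN_encC (Nat.two_pow_pos _) _
  refine ⟨⟨Nat.le_add_right _ _, fun _ _ => ad_aMv_lt _ _, fun _ _ => ad_aMv_lt _ _,
    fun i hi => ?_, fun κ x => (hI m F D pub hC hM κ x).2.1, fun κ x hv ε ε' => ?_,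
    valid_of hI hC hM A1, fun x hv => ?_⟩, fun κ x ⟨hv, he⟩ => ?_⟩
  · have h1 : 0 < Fintype.card (Rg m D.M.n) := Fintype.card_pos
    have h2 : 0 < Fintype.card (Sl m D.M.n) := Fintype.card_pos
    have h3 : D.L ≤ D.L * Fintype.card (Sl m D.M.n) := Nat.le_mul_of_pos_right _ h2
    have h4 : D.M.n ≤ D.L := by unfold Dat.L; omega
    change Fintype.card (Rg m D.M.n) + D.L * Fintype.card (Sl m D.M.n) ≤ i at hi
    unfold Dat.gpub Dat.npub
    rw [if_neg (by omega), hM.pubz _ (by omega), uAll_zero hC.two]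
  · obtain ⟨h1, -, h2, -⟩ := hI m F D pub hC hM κ x
    obtain ⟨h3, h4⟩ := h2 (h1.1 hv).2.le
    exact ⟨(h3 ε).trans (h3 ε').symm, (h4 ε).trans (h4 ε').symm⟩
  · have h1 := (A2 _ ((hI m F D pub hC hM _ x).1.1 hv).2 hst).2
    rw [← ofSt_toSt D.gm.st x]
    unfold ofSt
    rw [h1]
    rfl
  · obtain ⟨hκ, hσ⟩ := (hI m F D pub hC hM κ x).1.1 hv
    have hκ' : encC D.L (D.toSt κ x).N (D.toSt κ x).c = κ := hκ.symm
    rcases he with he | ⟨h0, he⟩
    · refine (A3 _ hσ).resolve_left fun h => he ?_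
      have h1 := step_of hI hC hM hσ h.1 rfl h.2.1 h.2.2
      rw [hκ', ofSt_toSt] at h1
      exact ⟨_, _, h1⟩
    · have hN : (D.toSt κ x).N ≠ 0 := fun hN => h0 (by
        rw [← hκ', hN, (A2 _ hσ hN).1]
        rfl)
      refine (A4 _ hσ hN).resolve_left fun h => he ?_
      have h1 := step_of hI hC hM h.1 hσ h.2 rfl hN
      rw [hκ', ofSt_toSt] at h1
      exact ⟨_, _, h1⟩

namespace EndP

/-- the data of a curve -/
abbrev CvT (m p : ℕ) : Type :=
  Vec (Fin m) (ZMod p) × Vec (Fin (8 * m + 1)) (ZMod p) ×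
    Vec (Fin (8 * m + 1)) (Vec (Fin m) (ZMod p))

theorem esize_cv {m p : ℕ} [NeZero p] (x : CvT m p) :
    esize x ≤ 2 * (m * (2 * p.size + 1)) + (2 * ((8 * m + 1) * (2 * p.size + 1)) +
      (8 * m + 1) * (2 * (m * (2 * p.size + 1)) + 1) + 1) + 1 := by
  have h0 : ∀ y : ZMod p, esize y ≤ p.size := fun y =>
    (esize_nat_mono (ZMod.val_lt y).le).trans (esize_nat p).le
  have h1 : ∀ (k : ℕ) (v : Vec (Fin k) (ZMod p)), esize v ≤ k * (2 * p.size + 1) := fun k v => by
    have := esize_vec_le (f := v) fun i => h0 (v i)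
    rwa [length_elems, Fintype.card_fin] at this
  have h2 : esize x.2.2 ≤ (8 * m + 1) * (2 * (m * (2 * p.size + 1)) + 1) := by
    have := esize_vec_le (f := x.2.2) fun i => h1 m (x.2.2 i)
    rwa [length_elems, Fintype.card_fin] at this
  have h3 := h1 _ x.1
  have h4 := h1 _ x.2.1
  have h5 := esize_pair x.1 x.2
  have h6 := esize_pair x.2.1 x.2.2
  change esize x = _ at h5
  change esize x.2 = _ at h6
  omega

theorem pl_comp {β : Type} [Enc β] {par : EOL → β} {f : β → ℕ} (hp : PL fun I => esize (par I))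
    (hf : PBd f) : PL fun I => f (par I) := by
  obtain ⟨c, hc⟩ := hf
  exact ((hp.add (PL.const 2)).pow c).mono fun I => hc _

/-- the parameters together with the data of the curve -/
def par' (π : Par) (cv : ∀ I, CvT (π.m (π.par I)) (π.p (π.par I))) (h : DPT cv) : Par where
  β := Σ b : π.β, CvT (π.m b) (π.p b)
  par I := ⟨π.par I, cv I⟩
  m b := π.m b.1
  p b := π.p b.1
  ptPar := DPT.smk π.ptPar h
  plPar := by
    have h1 := π.pbm
    have h2 := pbd_size π.ptp
    refine (pl_comp (par := π.par) (f := fun b => 2 * esize b + (2 * (π.m b *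
      (2 * (π.p b).size + 1)) + (2 * ((8 * π.m b + 1) * (2 * (π.p b).size + 1)) +
      (8 * π.m b + 1) * (2 * (π.m b * (2 * (π.p b).size + 1)) + 1) + 1) + 1) + 1) π.plPar
      ?_).mono fun I => ?_
    · have h3 : PBd fun b : π.β => esize b := PBd.esize
      fun_prop
    · have := esize_cv (cv I)
      rw [esize_sigma]
      exact Nat.add_le_add_right (Nat.add_le_add_left this _) 1
  ptm := π.ptm.comp DPT.id.sfst
  pbm := pbd_comp π.pbm DPT.id.sfst
  ptp := π.ptp.comp DPT.id.sfst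
  pbp := π.pbp
  adm b := π.adm b.1
  ql := π.ql

/-- the data which belong to a vector machine and a curve -/
def dat {m p : ℕ} (M : VM m (ZMod p)) (x : CvT m p) : Dat m (ZMod p) where
  M := M
  a i := x.1.toL.getD i 0
  t i := x.2.1.toL.getD i 0
  r i j := (x.2.2.toL.getD i 0).toL.getD j 0

theorem getD_toL {k : ℕ} {T : Type} (v : Fin k → T) (i : Fin k) (d : T) :
    (Vec.toL v).getD i d = v i := by
  change ((List.finRange k).map v).getD i d = v i
  rw [List.getD_eq_getElem _ _ (by simp)]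
  simp

end EndP

open EndP in
/-- O2: the family of machines with control. -/
theorem gmStmt (hV : VMStmt) (hC : CurveStmt) (hE : EndStmt) (hP : PTStmt) : GMStmt := by
  intro e
  obtain ⟨e0, hC⟩ := hC
  obtain ⟨π, M, pub, dec, hL, hM⟩ := hV (max e e0)
  have hL' : ∀ e' ≤ max e e0, π.Large e' := fun e' he b =>
    (Nat.mul_le_mul_left _ (Nat.pow_le_pow_right (by omega) he)).trans (hL b)
  obtain ⟨a, t, r, ha, ht, hr, hcv⟩ := hC π (hL' e0 (le_max_right _ _))
  let π' := par' π (fun I => (a I, t I, r I)) (ha.pair (ht.pair hr))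
  let D : ∀ b : π'.β, Dat (π'.m b) (ZMod (π'.p b)) := fun b => dat (M b.1) b.2
  have hD : ∀ I, (D (π'.par I)).Cv := fun I => by
    have h1 : (fun ω : Fin (π.m (π.par I)) => (D (π'.par I)).a ω) = a I :=
      funext fun ω => getD_toL _ _ _
    have h2 : (fun b : Fin (8 * π.m (π.par I) + 1) => (D (π'.par I)).t b) = t I :=
      funext fun ω => getD_toL _ _ _
    have h3 : (fun (b : Fin (8 * π.m (π.par I) + 1)) (ω : Fin (π.m (π.par I))) =>
        (D (π'.par I)).r b ω) = r I := funext fun b => funext fun ω =>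
      (getD_toL _ _ _).trans (congrFun (getD_toL (r I) b 0) ω)
    change Curve _ _ (fun ω : Fin (π.m (π.par I)) => (D (π'.par I)).a ω)
      (fun b : Fin (8 * π.m (π.par I) + 1) => (D (π'.par I)).t b)
      fun (b : Fin (8 * π.m (π.par I) + 1)) (ω : Fin (π.m (π.par I))) => (D (π'.par I)).r b ω
    rw [h1, h2, h3]
    exact hcv I
  have s1 : DPT fun b : π'.β => b.1 := DPT.id.sfst
  have s2 : DPT fun b : π'.β => b.2 := DPT.ssnd
  have z0 : DPT fun b : π'.β => (0 : ZMod (π'.p b)) := (PTRing.zmod π'.ptp).zero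
  have z1 : DPT fun b : π'.β => (0 : Vec (Fin (π'.m b)) (ZMod (π'.p b))) :=
    dpt_vecMk (dpt_elems_fin π'.ptm π'.pbm) (z0.comp DPT.id.sfst)
  have f1 : DPT fun x : π'.β × ℕ => x.1 := DPT.id.fst
  have f2 : DPT fun x : π'.β × ℕ × ℕ => x.1 := DPT.id.fst
  refine ⟨π', fun b => (D b).L + 1, fun b => (D b).gm, _, _, fun b => hL' e (le_max_left _ _) b.1,
    hP π' D pub dec ⟨hM.ptn.comp s1, pbd_comp hM.pbn s1, ?_, ?_, hM.suc.comp s1, hM.pre.comp s1,
      hM.fst.comp s1, ?_, ?_, ?_⟩ hM.ptPub hM.ptDec (fun I => (hE _ _ _ _ (hD I) (hM.ok I)).1)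
      fun I κ x h => hM.ends I _ ((hE _ _ _ _ (hD I) (hM.ok I)).2 κ x h)⟩
  · exact hM.ins.comp (f := fun x : π'.β × ℕ => (x.1.1, x.2)) ((s1.comp f1).pair DPT.id.snd)
  · exact hM.zero.comp (f := fun x : π'.β × ℕ => (x.1.1, x.2)) ((s1.comp f1).pair DPT.id.snd)
  · exact DPT.getD (dpt_toL (s2.comp f1).fst) DPT.id.snd (z0.comp f1)
  · exact DPT.getD (dpt_toL (s2.comp f1).snd.fst) DPT.id.snd (z0.comp f1)
  · exact DPT.getD (dpt_toL (DPT.getD (dpt_toL (s2.comp f2).snd.snd) DPT.id.snd.fst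
      (z1.comp f2))) DPT.id.snd.snd (z0.comp f2)

end Vale.Agent.P330.Outer.GMD
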