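import Vale.Agent.P330.Outer.GM.Defs

/-!
P330, outer system: the operators on the cube and the tests of the products.
-/

namespace Vale.Agent.P330.Outer.GMD

open Finset
open Vale.Agent.P330.Bohr

namespace OpP

variable {m : ℕ} {F : Type} [Field F]

/-! ### Multipliers -/

theorem hat_pOp_le (h2 : (2 : F) ≠ 0) (α β : ℕ → F) (x : Gam m → F) (S : Gam m) (j : ℕ) :
    hat (pOp α β x j) S =
      (∏ ω ∈ range j, if h : ω < m then (if S ⟨ω, h⟩ = 0 then α ω else β ω) else 1) * hat x S := by
  induction j with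
  | zero => simp [pOp]
  | succ j ih =>
    rw [prod_range_succ, pOp]
    generalize (∏ ω ∈ range j, if h : ω < m then (if S ⟨ω, h⟩ = 0 then α ω else β ω) else 1) = c
      at ih ⊢
    split_ifs with h h'
    · rw [hat_add, hat_mul, hat_mul, hat_shift, chi_eV, sg, if_pos h', ih]
      field_simp
      ring
    · rw [hat_add, hat_mul, hat_mul, hat_shift, chi_eV, sg, if_neg h', ih]
      field_simp
      ring
    · rw [ih, mul_one]

/-- the multiplier of an operator -/
def mx (r : ℕ → F) (e : ℕ) (bit : ℕ → Bool) (S : Gam m) : F :=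
  ∏ ω : Fin m, if S ω = 0 then alf F e bit ω else bet e bit r ω

theorem hat_opx (h2 : (2 : F) ≠ 0) (r : ℕ → F) (e : ℕ) (bit : ℕ → Bool) (x : Gam m → F)
    (S : Gam m) : hat (opx r e bit x) S = mx r e bit S * hat x S := by
  rw [opx, hat_pOp_le h2, prod_range, mx]
  simp only [Fin.is_lt, dif_pos, Fin.eta]

theorem opx_apply (h2 : (2 : F) ≠ 0) (r : ℕ → F) (e : ℕ) (bit : ℕ → Bool) (x : Gam m → F)
    (ε : Gam m) : opx r e bit x ε = ∑ S, mx r e bit S * hat x S * chi F S ε := by
  simp only [← hat_opx h2, sum_hat h2]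

theorem mx_top (r : ℕ → F) (bit : ℕ → Bool) (S : Gam m) :
    mx r (m + 1) bit S = rp (fun ω => r ω) S :=
  prod_congr rfl fun ω _ => by
    have : (ω : ℕ) + 1 < m + 1 := by omega
    simp only [alf, bet, if_pos this]

/-- the frequency with the given digits -/
def bvec (m : ℕ) (bit : ℕ → Bool) : Gam m := fun ω => if bit ω then 1 else 0

theorem mx_zero (r : ℕ → F) (bit : ℕ → Bool) (S : Gam m) :
    mx r 0 bit S = if S = bvec m bit then rp (fun ω => r ω) S else 0 := by
  split_ifs with h
  · subst h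
    refine prod_congr rfl fun ω _ => ?_
    by_cases hb : bit ω <;> simp [alf, bet, bvec, hb]
  · obtain ⟨ω, hω⟩ := Function.ne_iff.1 h
    refine prod_eq_zero (mem_univ ω) ?_
    by_cases hb : bit ω <;> rcases zm2 (S ω) with h1 | h1 <;> simp_all [alf, bet, bvec]

theorem opx_zero (h2 : (2 : F) ≠ 0) (r : ℕ → F) (bit : ℕ → Bool) (x : Gam m → F) (ε : Gam m) :
    opx r 0 bit x ε = rp (fun ω => r ω) (bvec m bit) * hat x (bvec m bit) * chi F (bvec m bit) ε := by
  rw [opx_apply h2]
  simp only [mx_zero, ite_mul, zero_mul, sum_ite_eq', mem_univ, if_true]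

/-- The highest digit in which `t'` and `t` differ is `i`, and there `t` has the digit one. -/
def Hi (t' t i : ℕ) : Prop :=
  t'.testBit i = false ∧ t.testBit i = true ∧ ∀ j, i < j → t'.testBit j = t.testBit j

theorem bitv_eq_zero (t : ℕ) (ω : Fin m) : bitv m t ω = 0 ↔ t.testBit ω = false := by
  unfold bitv
  cases t.testBit ω <;> simp

open Classical in
theorem mx_succ (r : ℕ → F) {t t' : ℕ} (ht : t < 2 ^ m) (ht' : t' < 2 ^ m) (i : Fin m) :
    mx r (i + 1) t.testBit (bitv m t') =
      if Hi t' t i then rp (fun ω => r ω) (bitv m t') else 0 := by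
  split_ifs with h
  · refine prod_congr rfl fun ω _ => ?_
    simp only [bitv_eq_zero, alf, bet, add_lt_add_iff_right, add_left_inj]
    rcases lt_trichotomy (ω : ℕ) i with h1 | h1 | h1
    · simp [h1]
    · simp [h1, h.1, h.2.1]
    · rw [if_neg h1.not_gt, if_neg h1.ne', if_neg h1.not_gt, if_neg h1.ne', ← h.2.2 _ h1]
      cases t'.testBit ω <;> simp
  · by_cases h1 : t'.testBit i = false ∧ t.testBit i = true
    · have : ∃ j, (i : ℕ) < j ∧ t'.testBit j ≠ t.testBit j := by
        by_contra hc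
        push Not at hc
        exact h ⟨h1.1, h1.2, hc⟩
      obtain ⟨j, hj, hne⟩ := this
      have hjm : j < m := by
        by_contra hc
        have hp : 2 ^ m ≤ 2 ^ j := Nat.pow_le_pow_right (by norm_num) (by omega)
        exact hne (by rw [Nat.testBit_lt_two_pow (ht.trans_le hp),
          Nat.testBit_lt_two_pow (ht'.trans_le hp)])
      refine prod_eq_zero (mem_univ ⟨j, hjm⟩) ?_
      simp only [bitv_eq_zero, alf, bet, add_lt_add_iff_right, add_left_inj]
      rw [if_neg hj.not_gt, if_neg hj.ne', if_neg hj.not_gt, if_neg hj.ne']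
      revert hne
      cases t'.testBit j <;> cases t.testBit j <;> simp
    · refine prod_eq_zero (mem_univ i) ?_
      simp only [bitv_eq_zero, alf, bet, lt_self_iff_false, if_false, if_true]
      revert h1
      cases t'.testBit i <;> cases t.testBit i <;> simp

open Classical in
theorem sum_hi {t t' : ℕ} (ht : t < 2 ^ m) (c : F) :
    (∑ i : Fin m, if Hi t' t i then c else 0) = if t' < t then c else 0 := by
  split_ifs with h
  · obtain ⟨i, hi, hi'⟩ := Nat.exists_most_significant_bit (n := t' ^^^ t)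
      (by simpa using h.ne)
    have h1 : ∀ j, i < j → t'.testBit j = t.testBit j := fun j hj => by simpa using hi' j hj
    have h2 : t'.testBit i = false ∧ t.testBit i = true := by
      by_contra hc
      refine h.not_gt (Nat.lt_of_testBit i ?_ ?_ fun j hj => (h1 j hj).symm) <;>
      · rw [Nat.testBit_xor] at hi
        revert hi hc
        cases t'.testBit i <;> cases t.testBit i <;> simp
    have him : i < m := by
      by_contra hc
      have hp : 2 ^ m ≤ 2 ^ i := Nat.pow_le_pow_right (by norm_num) (by omega)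
      rw [Nat.testBit_lt_two_pow (ht.trans_le hp)] at h2
      exact absurd h2.2 (by simp)
    rw [sum_eq_single ⟨i, him⟩, if_pos ⟨h2.1, h2.2, h1⟩]
    · intro j _ hj
      refine if_neg fun hH => ?_
      rcases lt_or_gt_of_ne (Fin.val_ne_of_ne hj) with h3 | h3
      · have := hH.2.2 _ h3
        rw [h2.1, h2.2] at this
        exact absurd this (by simp)
      · have := h1 _ h3
        rw [hH.1, hH.2.1] at this
        exact absurd this (by simp)
    · intro h3; exact absurd (mem_univ _) h3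
  · exact sum_eq_zero fun i _ => if_neg fun hH => h (Nat.lt_of_testBit i hH.1 hH.2.1 hH.2.2)

theorem sum_bitv (f : Gam m → F) : ∑ S, f S = ∑ t ∈ range (2 ^ m), f (bitv m t) := by
  classical
  have hinj : Set.InjOn (bitv m) (range (2 ^ m) : Finset ℕ) := by
    intro t ht t' ht' h
    rw [coe_range, Set.mem_Iio] at ht ht'
    refine Nat.eq_of_testBit_eq fun j => ?_
    by_cases hj : j < m
    · have h1 := bitv_eq_zero t ⟨j, hj⟩
      rw [h, bitv_eq_zero] at h1
      revert h1
      cases t'.testBit j <;> cases t.testBit j <;> simp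
    · have hp : 2 ^ m ≤ 2 ^ j := Nat.pow_le_pow_right (by norm_num) (by omega)
      rw [Nat.testBit_lt_two_pow (ht.trans_le hp), Nat.testBit_lt_two_pow (ht'.trans_le hp)]
  rw [← sum_image hinj, eq_univ_of_card (image (bitv m) (range (2 ^ m)))
    (by rw [card_image_of_injOn hinj, card_range, Gam.card])]

/-- the component of the frequency number `t` -/
def cpn (r : ℕ → F) (x : Gam m → F) (ε : Gam m) (t : ℕ) : F :=
  rp (fun ω => r ω) (bitv m t) * hat x (bitv m t) * chi F (bitv m t) ε

theorem uAll_eq (h2 : (2 : F) ≠ 0) (r : ℕ → F) (x : Gam m → F) (ε : Gam m) :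
    uAll (fun ω => r ω) x ε = ∑ t ∈ range (2 ^ m), cpn r x ε t := by
  rw [uAll_apply h2, sum_bitv]
  rfl

theorem opx_bit (h2 : (2 : F) ≠ 0) (r : ℕ → F) (t : ℕ) (x : Gam m → F) (ε : Gam m) :
    opx r 0 t.testBit x ε = cpn r x ε t := opx_zero h2 r _ x ε

theorem sum_opx (h2 : (2 : F) ≠ 0) (r : ℕ → F) {t : ℕ} (ht : t < 2 ^ m) (x : Gam m → F)
    (ε : Gam m) : ∑ ω : Fin m, opx r (ω + 1) t.testBit x ε = ∑ t' ∈ range t, cpn r x ε t' := by
  simp only [opx_apply h2]
  rw [sum_comm, sum_bitv]
  have h1 : ∀ t' ∈ range (2 ^ m), ∑ ω : Fin m, mx r (ω + 1) t.testBit (bitv m t') *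
      hat x (bitv m t') * chi F (bitv m t') ε = if t' < t then cpn r x ε t' else 0 := by
    intro t' ht'
    rw [← sum_mul, ← sum_mul]
    simp only [mx_succ r ht (mem_range.1 ht')]
    rw [sum_hi ht, cpn]
    split_ifs <;> simp
  rw [sum_congr rfl h1, ← sum_filter]
  refine sum_congr ?_ fun _ _ => rfl
  ext t'
  simp only [mem_filter, mem_range]
  omega

/-! ### Products -/

theorem sum_pairs (X Y : ℕ → F) {n : ℕ} (i : ℕ) {j : ℕ} (hj : j ≤ n) :
    ∑ v ∈ range (i * n + j), X (v / n) * Y (v % n) =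
      (∑ t ∈ range i, X t) * (∑ t ∈ range n, Y t) + X i * ∑ t ∈ range j, Y t := by
  induction i generalizing j with
  | zero =>
    rw [zero_mul, zero_add, range_zero, sum_empty, zero_mul, zero_add, mul_sum]
    refine sum_congr rfl fun v hv => ?_
    have : v < n := (mem_range.1 hv).trans_le hj
    rw [Nat.div_eq_of_lt this, Nat.mod_eq_of_lt this]
  | succ i ih =>
    rw [sum_range_add, add_mul i 1 n, one_mul, ih le_rfl, sum_range_succ X, add_mul, mul_sum (range j)]
    congr 1
    refine sum_congr rfl fun v hv => ?_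
    have h1 : v < n := (mem_range.1 hv).trans_le hj
    have h2 : i * n + n + v = v + n * (i + 1) := by ring
    rw [h2, Nat.add_mul_div_left _ _ (by omega), Nat.add_mul_mod_self_left, Nat.div_eq_of_lt h1,
      Nat.mod_eq_of_lt h1, zero_add]

theorem sum_ek (D : Dat m F) (q : ℕ) (τ : F) :
    ∑ k : Fin (m + 1), τ ^ (k : ℕ) * D.ek q k =
      ∏ ω : Fin m, if (fq m false q).testBit ω ∧ (fq m true q).testBit ω then τ - D.a ω else 1 := by
  obtain ⟨p, hp⟩ : ∃ p : Polynomial F, p = ∏ ω : Fin m,
      if (fq m false q).testBit ω ∧ (fq m true q).testBit ω then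
        Polynomial.X - Polynomial.C (D.a ω) else 1 := ⟨_, rfl⟩
  have hd : p.natDegree < m + 1 := by
    rw [hp, Nat.lt_succ_iff]
    refine (Polynomial.natDegree_prod_le _ _).trans ?_
    refine (sum_le_card_nsmul _ _ 1 fun ω _ => ?_).trans (by simp)
    split_ifs
    · exact (Polynomial.natDegree_X_sub_C _).le
    · simp
  have h1 : ∀ k, D.ek q k = p.coeff k := fun k => by rw [hp]; rfl
  calc ∑ k : Fin (m + 1), τ ^ (k : ℕ) * D.ek q k = p.eval τ := by
        rw [Polynomial.eval_eq_sum_range' hd, sum_range]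
        exact sum_congr rfl fun k _ => by rw [h1, mul_comm]
    _ = _ := by
        rw [hp, Polynomial.eval_prod]
        refine prod_congr rfl fun ω _ => ?_
        split_ifs <;> simp

theorem U_tgt (D : Dat m F) (hD : D.Cv) {b : ℕ} (hb : b < 8 * m + 1) (x y : Gam m → F) (σ : ℕ)
    (ε : Gam m) : D.U b (gsum (D.tgt x y σ) (D.t b)) ε =
      ∑ v ∈ range (min σ (4 ^ m)),
        cpn (D.r b) x ε (fq m false v) * cpn (D.r b) y ε (fq m true v) := by
  have h2 := hD.two
  have h1 : gsum (D.tgt x y σ) (D.t b) = fun ε => ∑ v ∈ range (min σ (4 ^ m)),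
      (cf x y v * rp (fun ω : Fin m => D.r b ω ^ 2)
        (cap (bitv m (fq m false v)) (bitv m (fq m true v)))) * chv m F v ε := by
    funext ε
    simp only [gsum, Dat.tgt, mul_sum]
    rw [sum_comm]
    refine sum_congr rfl fun v _ => ?_
    have h3 : rp (fun ω : Fin m => D.r b ω ^ 2)
        (cap (bitv m (fq m false v)) (bitv m (fq m true v))) =
        ∑ k : Fin (m + 1), D.t b ^ (k : ℕ) * D.ek v k := by
      rw [sum_ek]
      refine prod_congr rfl fun ω _ => ?_
      have h4 : D.r b ω ^ 2 = D.t b - D.a ω := hD.sq ⟨b, hb⟩ ω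
      simp only [cap_apply, mul_eq_zero, bitv_eq_zero, h4]
      cases (fq m false v).testBit ω <;> cases (fq m true v).testBit ω <;> simp
    rw [h3, mul_sum, sum_mul]
    exact sum_congr rfl fun k _ => by ring
  rw [h1, Dat.U, uAll_sum h2]
  refine sum_congr rfl fun v _ => ?_
  rw [uAll_mul h2, chv, uAll_chi h2]
  simp only [cpn, cf, chi_add_left]
  linear_combination (-(hat x (bitv m (fq m false v)) * hat y (bitv m (fq m true v)) *
    chi F (bitv m (fq m false v)) ε * chi F (bitv m (fq m true v)) ε)) *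
    rp_mul_rp (fun ω : Fin m => D.r b ω) (bitv m (fq m false v)) (bitv m (fq m true v))

theorem sum_fq (X Y : ℕ → F) {i j : ℕ} (hi : i < 2 ^ m) (hj : j ≤ 2 ^ m) :
    ∑ v ∈ range (i * 2 ^ m + j), X (fq m false v) * Y (fq m true v) =
      (∑ t ∈ range i, X t) * (∑ t ∈ range (2 ^ m), Y t) + X i * ∑ t ∈ range j, Y t := by
  have h := sum_pairs (fun t => X (t % 2 ^ m)) Y i hj
  rw [Nat.mod_eq_of_lt hi, sum_congr rfl fun t ht => congrArg X
    (Nat.mod_eq_of_lt ((mem_range.1 ht).trans hi))] at h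
  exact h

theorem four_pow (m : ℕ) : 4 ^ m = 2 ^ m * 2 ^ m := by rw [← mul_pow]; rfl

theorem hat_dlt (h2 : (2 : F) ≠ 0) (S : Gam m) : hat (dlt m F) S = 1 := by
  simp only [hat, dlt, ite_mul, zero_mul, sum_ite_eq', mem_univ, if_true, chi_zero_right, mul_one]
  exact inv_mul_cancel₀ (pow_ne_zero _ h2)

end OpP

open OpP in
theorem opStmt (h : AGDistStmt) : OpStmt := by
  intro m F _ D hD
  have h2 := hD.two
  have hpos : 0 < 2 ^ m := by positivity
  refine ⟨fun b bit x => ext_hat h2 fun S => ?_, fun t x ε => ?_, fun x ε => ?_, fun q => ?_,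
    fun b hb x y σ ε hσ => ?_, fun b hb x y q w ε => ?_, fun g g' hg => ?_⟩
  · rw [hat_opx h2, mx_top, Dat.U, hat_uAll h2]
  · rw [opx_bit h2, cpn, rp_one, one_mul, mul_assoc, chi_mul_self, mul_one]
  · have : bvec m (fun _ => false) = 0 := funext fun _ => rfl
    rw [opx_zero h2, this, rp_one, one_mul, chi_zero_left, mul_one]
  · funext ε
    have : bvec m (fun ω => xor ((fq m false q).testBit ω) ((fq m true q).testBit ω)) =
        bitv m (fq m false q) + bitv m (fq m true q) := by
      funext ω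
      rw [Gam.add_apply]
      exact (by decide : ∀ a b : Bool, (if xor a b then 1 else 0 : ZMod 2) =
        (if a then 1 else 0) + if b then 1 else 0) _ _
    rw [opx_zero h2, this, rp_one, one_mul, hat_dlt h2, one_mul, chv]
  · have e : 4 ^ m = (2 ^ m - 1) * 2 ^ m + 2 ^ m := by
      rw [four_pow, ← Nat.succ_mul, Nat.succ_eq_add_one, Nat.sub_add_cancel hpos]
    rw [U_tgt D hD hb, min_eq_right hσ, e, sum_fq _ _ (by omega) le_rfl, ← add_mul,
      ← sum_range_succ, Nat.sub_add_cancel hpos, Dat.U, Dat.U, uAll_eq h2, uAll_eq h2]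
  · have h3 : fq m false q < 2 ^ m := Nat.mod_lt _ hpos
    have h4 : fq m true q < 2 ^ m := Nat.mod_lt _ hpos
    have e : q % 4 ^ m = fq m false q * 2 ^ m + fq m true q := by
      rw [four_pow, Nat.mod_mul, add_comm, mul_comm]
      rfl
    have h5 : q % 4 ^ m < 4 ^ m := Nat.mod_lt _ (by positivity)
    have h6 : (if w then 1 else 0 : ℕ) ≤ 1 := by split_ifs <;> omega
    rw [U_tgt D hD hb, min_eq_left (by omega), e, add_assoc, sum_fq _ _ h3 (by omega), Dat.part,
      sum_opx h2 _ h3, sum_opx h2 _ h4, opx_bit h2, opx_bit h2, Dat.U, uAll_eq h2]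
    cases w
    · simp
    · simp [sum_range_succ]
  · refine sub_eq_zero.1 (h m F _ _ _ hD (g - g') (lt_of_le_of_lt (frac_mono ?_) hg))
    rintro ε ⟨b, hb⟩
    refine ⟨b, b.2, fun he => hb ?_⟩
    have e : (fun ε' => ∑ k : Fin (m + 1), D.t b ^ (k : ℕ) * (g - g') k ε') =
        fun ε' => gsum g (D.t b) ε' - gsum g' (D.t b) ε' := by
      funext ε'
      simp only [gsum, Pi.sub_apply, mul_sub, sum_sub_distrib]
    rw [e, uAll_sub h2]
    exact sub_eq_zero.2 he

end Vale.Agent.P330.Outer.GMD
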