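import Vale.Agent.P330.Outer.Four

/-!
P330, outer system: the machine with control which simulates a vector machine. Definitions of the
abstract machine, of its program, and the statements of the parts.

The number `N` of the control holds the phase `N % 4` (`0` build the start state, `1` hand over,
`2` build the successor, `3` remove the predecessor) and the stage `s = N / 4`; `q = N / 8` is the
number of the current pair of frequencies. The bank `false` is the main bank, `true` the work bank.
-/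

namespace Vale.Agent.P330.Outer.GMD

open Vale.Agent.Lib.PolyTime hiding C P
open Vale.Agent.Lib.Dep
open Vale.Agent.P330.Bohr
open Polynomial

/-- The vector machine and the data of the curve. -/
structure Dat (m : ℕ) (F : Type) where
  /-- the vector machine -/
  M : VM m F
  /-- the branch points -/
  a : ℕ → F
  /-- the split points -/
  t : ℕ → F
  /-- the square roots -/
  r : ℕ → ℕ → F

/-- the frequency with the binary digits of `t` -/
def bitv (m t : ℕ) : Gam m := fun ω => if t.testBit ω then 1 else 0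

/-- the number of the product -/
def fI (m q : ℕ) : ℕ := q / 4 ^ m

/-- the frequency of the first (`false`) and of the second (`true`) factor -/
def fq (m : ℕ) (s : Bool) (q : ℕ) : ℕ := if s then q % 2 ^ m else q / 2 ^ m % 2 ^ m

/-- the pair of frequencies of the neighbouring stage which is reached without a write -/
def oth (N : ℕ) : ℕ := if N / 4 % 2 = 1 then N / 8 + 1 else N / 8 - 1

/-- indices of the registers of a bank -/
abbrev Rho (m n : ℕ) : Type := Option (Fin (n + 1) × Fin (m + 1))

/-- indices of the given registers -/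
abbrev Rg (m n : ℕ) : Type := Bool × Rho m n

/-- indices of the operator blocks: bank, kind (`0` first factor, `1` second factor, `2` product),
number of the product, number of the point, kind of the projection -/
abbrev Blk (m n : ℕ) : Type := Bool × Fin 3 × Fin (n + 1) × Fin (8 * m + 2) × Fin (m + 3)

/-- slots of a level -/
abbrev Sl (m n : ℕ) : Type := Rg m n ⊕ (Blk m n ⊕ Fin 3)

/-- addresses: given registers, or level and slot -/
abbrev Ad (m n : ℕ) : Type := Rg m n ⊕ (ℕ × Sl m n)

variable {m : ℕ} {F : Type} [Field F]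

/-! ### Operators -/

/-- The product of the operators `α ω P⁺ + β ω P⁻` in the directions `ω < j`. -/
def pOp (α β : ℕ → F) (x : Gam m → F) : ℕ → Gam m → F
  | 0 => x
  | j + 1 => if h : j < m then
      fun ε => (α j + β j) / 2 * pOp α β x j ε + (α j - β j) / 2 * pOp α β x j (ε + eV ⟨j, h⟩)
    else pOp α β x j

/-- multiplier of `P⁺`: `e = 0` projection to the frequency `bit`, `e = ω + 1` projection to the
smaller frequencies whose highest different digit is `ω`, `e = m + 1` no projection -/
def alf (F : Type) [Field F] (e : ℕ) (bit : ℕ → Bool) (ω : ℕ) : F :=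
  if ω + 1 < e then 1 else if ω + 1 = e then (if bit ω then 1 else 0) else if bit ω then 0 else 1

/-- multiplier of `P⁻` -/
def bet (e : ℕ) (bit : ℕ → Bool) (r : ℕ → F) (ω : ℕ) : F :=
  if ω + 1 < e then r ω else if ω + 1 = e then 0 else if bit ω then r ω else 0

/-- projection followed by the evaluation at the point with the roots `r` -/
def opx (r : ℕ → F) (e : ℕ) (bit : ℕ → Bool) (x : Gam m → F) : Gam m → F :=
  pOp (alf F e bit) (bet e bit r) x m

/-- the coefficient of the pair of frequencies `q` -/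
def cf (x y : Gam m → F) (q : ℕ) : F :=
  hat x (bitv m (fq m false q)) * hat y (bitv m (fq m true q))

/-- the character which is written for the pair of frequencies `q` -/
def chv (m : ℕ) (F : Type) [Field F] (q : ℕ) : Gam m → F :=
  chi F (bitv m (fq m false q) + bitv m (fq m true q))

/-- the sum of all characters -/
def dlt (m : ℕ) (F : Type) [Field F] : Gam m → F := fun ε => if ε = 0 then 2 ^ m else 0

/-- the value of a family at `τ` -/
def gsum (g : Fin (m + 1) → Gam m → F) (τ : F) : Gam m → F :=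
  fun ε => ∑ k : Fin (m + 1), τ ^ (k : ℕ) * g k ε

namespace Dat

variable (D : Dat m F)

/-- The data form a curve. -/
def Cv : Prop := Curve m F (fun ω => D.a ω) (fun b => D.t b) fun b ω => D.r b ω

/-- evaluation at the point `b` -/
def U (b : ℕ) (x : Gam m → F) : Gam m → F := uAll (fun ω => D.r b ω) x

/-- the coefficients of the product of the `X - a ω` over the common support -/
noncomputable def ek (q k : ℕ) : F :=
  (∏ ω : Fin m, if (fq m false q).testBit ω ∧ (fq m true q).testBit ω then X - C (D.a ω)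
    else 1 : F[X]).coeff k

/-- the family of the product of `x` and `y` after the first `σ` pairs of frequencies -/
noncomputable def tgt (x y : Gam m → F) (σ : ℕ) (k : Fin (m + 1)) : Gam m → F :=
  fun ε => ∑ v ∈ Finset.range (min σ (4 ^ m)), cf x y v * D.ek v k * chv m F v ε

/-- the right hand side of the test of the product which is being built -/
def part (b q : ℕ) (w : Bool) (x y : Gam m → F) (ε : Gam m) : F :=
  (∑ ω : Fin m, opx (D.r b) (ω + 1) (fq m false q).testBit x ε) * D.U b y ε +
    opx (D.r b) 0 (fq m false q).testBit x ε *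
      (∑ ω : Fin m, opx (D.r b) (ω + 1) (fq m true q).testBit y ε +
        if w then opx (D.r b) 0 (fq m true q).testBit y ε else 0)

/-! ### The abstract machine -/

/-- banks -/
abbrev Bk : Type := Rho m D.M.n → Gam m → F

/-- the normalised public words -/
def npub (pub : ℕ → Gam m → F) (j : ℕ) : Gam m → F := uAll (fun ω => (D.r 0 ω)⁻¹) (pub j)

/-- the normalised registers of the vector machine which belong to a bank -/
def bV (np : ℕ → Gam m → F) (B : D.Bk) : ℕ → Gam m → F :=
  run 1 (fun i R => (D.M.ins i).elim (fun c => c.eval np R)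
    fun _ => gsum (fun k => B (some (Fin.ofNat _ i, k))) (D.t 0)) fun _ => B none

/-- the register of a factor of the product `i` -/
def fac (s : Bool) (i : ℕ) : Option ℕ :=
  (D.M.ins i).elim (fun _ => none) fun c =>
    if 1 ≤ i ∧ i < D.M.n ∧ (if s then c.2 else c.1) < i then some (if s then c.2 else c.1)
    else none

/-- a factor of the product `i` -/
def facV (np : ℕ → Gam m → F) (B : D.Bk) (s : Bool) (i : ℕ) : Gam m → F :=
  (D.fac s i).elim 0 (D.bV np B)

/-- The bank holds the products after `σ` pairs of frequencies. -/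
def BankOk (np : ℕ → Gam m → F) (B : D.Bk) (σ : ℕ) : Prop :=
  ∀ (i : Fin (D.M.n + 1)) (k : Fin (m + 1)),
    B (some (i, k)) = D.tgt (D.facV np B false i) (D.facV np B true i) (σ - i * 4 ^ m) k

/-- the coefficient of the write number `q` -/
def cfB (np : ℕ → Gam m → F) (B : D.Bk) (q : ℕ) : F :=
  cf (D.facV np B false (fI m q)) (D.facV np B true (fI m q)) q

/-- the number of all pairs of frequencies -/
def top : ℕ := D.M.n * 4 ^ m

/-- states of the abstract machine -/
structure St where
  /-- phase and stage -/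
  N : ℕ
  /-- the coefficient -/
  c : F
  /-- the banks -/
  B : Bool → D.Bk

/-- the state which is copied to the work bank -/
def src (np : ℕ → Gam m → F) (N : ℕ) (B : D.Bk) : Gam m → F :=
  if N % 4 = 0 then np 0 else D.bV np B (if N % 4 = 2 then D.M.suc else D.M.pre)

/-- valid states -/
structure AValid (np : ℕ → Gam m → F) (σ : D.St) : Prop where
  le : σ.N / 4 ≤ 2 * D.top
  hand : σ.N % 4 = 1 → σ.N / 4 = 0
  coef : σ.c = D.cfB np (σ.B true) (σ.N / 8)
  main : D.BankOk np (σ.B false) (if σ.N % 4 = 0 then 0 else D.top)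
  work : D.BankOk np (σ.B true) ((σ.N + 4) / 8)
  zw : σ.B true none = if σ.N / 4 = 0 then 0 else D.src np σ.N (σ.B false)
  zm : σ.N % 4 ≤ 1 → σ.B false none = if σ.N % 4 = 1 then np 0 else 0
  zero : σ.N % 4 ≠ 0 → ∀ i < D.M.n, D.M.zero i = true → D.bV np (σ.B false) i = 0
  flag : σ.N % 4 = 3 → D.bV np (σ.B false) D.M.fst = 0

/-- the move to the successor: `0` nothing, `1` exchange of the banks, `2` up, `3` down -/
def mvN (N : ℕ) : ℕ :=
  if N % 4 = 1 then 0 else if N % 4 = 3 then (if N / 4 = 0 then 0 else 3)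
  else if N / 4 < 2 * D.top then 2 else 1

/-- the move to the predecessor -/
def mvP (N : ℕ) : ℕ :=
  if N % 4 = 1 then 1 else if N % 4 = 3 then (if N / 4 < 2 * D.top then 2 else 1)
  else if N / 4 = 0 then 0 else 3

/-- phase and stage of the successor -/
def nxtN (N : ℕ) : ℕ :=
  if N % 4 = 1 then 2 else if N % 4 = 3 then (if N / 4 = 0 then 2 else N - 4)
  else if N / 4 < 2 * D.top then N + 4 else if N % 4 = 0 then 1 else N + 1

/-- phase and stage of the predecessor; `fl` is the flag of the main bank -/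
def prvN (N : ℕ) (fl : Bool) : ℕ :=
  if N % 4 = 1 then 8 * D.top else if N % 4 = 3 then (if N / 4 < 2 * D.top then N + 4 else N - 1)
  else if N / 4 = 0 then (if fl then 1 else 3) else N - 4

end Dat

/-- the sign of the write of the move up (`true`) or down (`false`) -/
def sgn (F : Type) [Field F] (d : Bool) (N : ℕ) : F :=
  if d then (if N / 4 % 2 = 0 then 1 else 0) else if N / 4 % 2 = 1 then -1 else 0

/-- the new coefficient: `c` if the move writes, `c'` if it changes the pair of frequencies -/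
def newc (mv N : ℕ) (c c' : F) : F :=
  if mv < 2 then 0 else if (mv + N / 4) % 2 = 0 then c else c'

namespace Dat

variable (D : Dat m F)

/-- the write -/
noncomputable def delta (np : ℕ → Gam m → F) (σ : D.St) : D.Bk := fun ρ =>
  ρ.elim (if σ.N / 8 = 0 then D.src np σ.N (σ.B false) else 0) fun ik =>
    if (ik.1 : ℕ) = fI m (σ.N / 8) then fun ε => σ.c * D.ek (σ.N / 8) ik.2 * chv m F (σ.N / 8) ε
    else 0

/-- the banks after a move -/
noncomputable def mvB (np : ℕ → Gam m → F) (mv : ℕ) (σ : D.St) : Bool → D.Bk := fun β =>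
  if mv = 0 then σ.B β else if mv = 1 then σ.B (!β) else if β then
    fun ρ ε => σ.B true ρ ε + sgn F (decide (mv = 2)) σ.N * D.delta np σ ρ ε
  else σ.B false

/-- the successor -/
noncomputable def Anxt (np : ℕ → Gam m → F) (σ : D.St) : D.St :=
  ⟨D.nxtN σ.N, newc (D.mvN σ.N) σ.N σ.c (D.cfB np (σ.B true) (oth σ.N)), D.mvB np (D.mvN σ.N) σ⟩

open Classical in
/-- the predecessor -/
noncomputable def Aprv (np : ℕ → Gam m → F) (σ : D.St) : D.St :=
  ⟨D.prvN σ.N (decide (hat (D.bV np (σ.B false) D.M.fst) 0 = 1)),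
    newc (D.mvP σ.N) σ.N σ.c (D.cfB np (σ.B true) (oth σ.N)), D.mvB np (D.mvP σ.N) σ⟩

end Dat

/-! ### The program -/

/-- linear instructions with addresses in `A` -/
abbrev TIns (m : ℕ) (F A : Type) : Type := List (F × A) ⊕ (Fin m × A) ⊕ ℕ

/-- change of the addresses of the registers and of the public words -/
def TIns.map {A A' : Type} (φ : A → A') (ψ : ℕ → ℕ) (c : TIns m F A) : TIns m F A' :=
  Sum.map (fun l => l.map fun x => (x.1, φ x.2)) (Sum.map (fun x => (x.1, φ x.2)) ψ) c

/-- the result of an instruction -/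
def TIns.eval {A : Type} (pub : ℕ → Gam m → F) (R : A → Gam m → F) : TIns m F A → Gam m → F
  | .inl l => fun ε => (l.map fun c => c.1 * R c.2 ε).sum
  | .inr (.inl c) => fun ε => R c.2 (ε + eV c.1)
  | .inr (.inr i) => pub i

/-- the register `j` of the vector machine for the bank `β` -/
def aV {m n : ℕ} (β : Bool) (j : ℕ) : Ad m n := .inr (j, .inl (β, none))

/-- the input of a block -/
def aIn {m n : ℕ} (s : Blk m n ⊕ Fin 3) : Ad m n := .inr (n, .inr s)

/-- the output of a block -/
def aOut {m n : ℕ} (s : Blk m n ⊕ Fin 3) : Ad m n := .inr (n + 2 * m, .inr s)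

/-- the output of the block with the given indices -/
def oX {m n : ℕ} (β : Bool) (ty : Fin 3) (i b e : ℕ) : Ad m n :=
  aOut (.inl (β, ty, Fin.ofNat _ i, Fin.ofNat _ b, Fin.ofNat _ e))

/-- the register which holds the given register `ρ` after the move `mv` -/
def aMv {m n : ℕ} (mv : ℕ) (ρ : Rg m n) : Ad m n :=
  if mv = 0 then .inl ρ else if mv = 1 then .inl (!ρ.1, ρ.2)
  else if ρ.1 then .inr (n + 2 * m + 1, .inl (decide (mv = 2), ρ.2)) else .inl ρ

/-- the number of a register -/
noncomputable def ad {m n : ℕ} (a : Ad m n) : ℕ :=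
  a.elim eidx fun x => Fintype.card (Rg m n) + x.1 * Fintype.card (Sl m n) + eidx x.2

/-- the number of a register which is read at the level `l`: the levels from `l` on are not
visible -/
noncomputable def adG {m n : ℕ} (l : ℕ) (a : Ad m n) : ℕ :=
  a.elim eidx fun x => if x.1 < l then ad (.inr x : Ad m n)
    else Fintype.card (Rg m n) + (l + 1) * Fintype.card (Sl m n)

/-- the level of the register number `i` -/
def lev (m n i : ℕ) : ℕ := (i - Fintype.card (Rg m n)) / Fintype.card (Sl m n)

/-- the slot of the register number `i` -/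
noncomputable def slt (m n i : ℕ) : Sl m n :=
  enth (Sl m n) ((i - Fintype.card (Rg m n)) % Fintype.card (Sl m n))

/-- the kind of the projection of a block -/
def thr {m n : ℕ} (s : Blk m n ⊕ Fin 3) : ℕ :=
  s.elim (fun x => if (x.2.2.2.2 : ℕ) = m + 2 then 0 else x.2.2.2.2) fun _ => 0

/-- the frequency of the projection of a block -/
def bitB {m n : ℕ} (N : ℕ) (s : Blk m n ⊕ Fin 3) (ω : ℕ) : Bool :=
  s.elim (fun x => (fq m (decide (x.2.1 = 1))
      (if (x.2.2.2.2 : ℕ) = m + 2 then oth N else N / 8)).testBit ω)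
    fun z => decide (z = 1) && xor ((fq m false (N / 8)).testBit ω) ((fq m true (N / 8)).testBit ω)

/-- the number in the control -/
noncomputable def decN {L : ℕ} (κ : Vec (Fin (L + 1)) F) : ℕ := by
  classical exact ∑ j : Fin (L + 1), if (j : ℕ) ≠ 0 ∧ κ.get j = 1 then 2 ^ ((j : ℕ) - 1) else 0

/-- the control with the number `N` and the coefficient `c` -/
def encC (L N : ℕ) (c : F) : Vec (Fin (L + 1)) F :=
  Vec.of fun j => if (j : ℕ) = 0 then c else if N.testBit ((j : ℕ) - 1) then 1 else 0

namespace Dat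

variable (D : Dat m F)

/-- the number of levels, and the number of digits of the control -/
def L : ℕ := D.M.n + 2 * m + 3

/-- the roots of a block -/
def rtB (s : Blk m D.M.n ⊕ Fin 3) (ω : ℕ) : F :=
  s.elim (fun x => if (x.2.2.2.1 : ℕ) < 8 * m + 1 then D.r x.2.2.2.1 ω else 1) fun _ => 1

/-- the value of the family `i` of the bank `β` at `τ` -/
def gIns (β : Bool) (i : Fin (D.M.n + 1)) (τ : F) : TIns m F (Ad m D.M.n) :=
  .inl ((List.finRange (m + 1)).map fun k : Fin (m + 1) =>
    (τ ^ (k : ℕ), .inl (β, some (i, k))))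

/-- the instructions of the vector machine -/
def vmIns (β : Bool) (j : ℕ) : TIns m F (Ad m D.M.n) :=
  if j = 0 then .inl [(1, .inl (β, none))]
  else (D.M.ins j).elim (fun c => TIns.map (aV β) (· + 1) c)
    fun _ => D.gIns β (Fin.ofNat _ j) (D.t 0)

/-- the inputs of the blocks -/
def inIns (s : Blk m D.M.n ⊕ Fin 3) : TIns m F (Ad m D.M.n) :=
  s.elim (fun x => if x.2.1 = 2 then D.gIns x.1 x.2.2.1 (D.t x.2.2.2.1)
      else .inl ((D.fac (decide (x.2.1 = 1)) x.2.2.1).elim [] fun j => [(1, aV x.1 j)]))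
    fun z => if z = 0 then .inr (.inr 1) else if z = 1 then .inr (.inr 0)
      else .inl [(1, aV false D.M.fst)]

/-- the step `j` of a block -/
def opIns (N j : ℕ) (s : Blk m D.M.n ⊕ Fin 3) : TIns m F (Ad m D.M.n) :=
  if j % 2 = 0 then
    (if h : j / 2 < m then .inr (.inl (⟨j / 2, h⟩, .inr (D.M.n + j, .inr s))) else .inl [])
  else .inl
    [((alf F (thr s) (bitB N s) (j / 2) + bet (thr s) (bitB N s) (D.rtB s) (j / 2)) / 2,
        .inr (D.M.n + j - 1, .inr s)),
      ((alf F (thr s) (bitB N s) (j / 2) - bet (thr s) (bitB N s) (D.rtB s) (j / 2)) / 2,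
        .inr (D.M.n + j, .inr s))]

/-- the address of the state which is copied to the work bank -/
def aSrc (N : ℕ) : Ad m D.M.n :=
  if N % 4 = 0 then aIn (.inr 0) else aV false (if N % 4 = 2 then D.M.suc else D.M.pre)

/-- the work bank after the move up (`ρ.1 = true`) or down -/
noncomputable def mvIns (N : ℕ) (c : F) (ρ : Rg m D.M.n) : TIns m F (Ad m D.M.n) :=
  .inl [(1, .inl (true, ρ.2)),
    ρ.2.elim (if N / 8 = 0 then sgn F ρ.1 N else 0, D.aSrc N) fun ik =>
      (if (ik.1 : ℕ) = fI m (N / 8) then sgn F ρ.1 N * (c * D.ek (N / 8) ik.2) else 0,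
        aOut (.inr 1))]

/-- the differences between the states of the banks and the prescribed values -/
def zIns (N : ℕ) (β : Bool) : TIns m F (Ad m D.M.n) :=
  .inl [(1, .inl (β, none)),
    if β then (if N / 4 = 0 then 0 else -1, D.aSrc N)
    else (if N % 4 = 1 then -1 else 0, aIn (.inr 0))]

/-- the program -/
noncomputable def tins (N : ℕ) (c : F) (l : ℕ) (s : Sl m D.M.n) : TIns m F (Ad m D.M.n) :=
  s.elim
    (fun ρ => if l < D.M.n then D.vmIns ρ.1 l else if l = D.M.n + 2 * m + 1 then D.mvIns N c ρ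
      else D.zIns N ρ.1)
    fun s => if l ≤ D.M.n then D.inIns s else D.opIns N (l - D.M.n - 1) s

/-- the registers which have to vanish -/
def tzero (N l : ℕ) (s : Sl m D.M.n) : Prop :=
  (s = .inl (false, none) ∧ l < D.M.n ∧
      ((N % 4 ≠ 0 ∧ D.M.zero l = true) ∨ (N % 4 = 3 ∧ l = D.M.fst))) ∨
    (l = D.M.n + 2 * m + 2 ∧ (s = .inl (true, none) ∨ (s = .inl (false, none) ∧ N % 4 ≤ 1)))

/-- the coefficient of the pair `q`, read from the blocks with the projection `e` -/
def rdc (q e : ℕ) (ε : Gam m) (v : Ad m D.M.n → F) : F :=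
  v (oX true 0 (fI m q) (8 * m + 1) e) * chi F (bitv m (fq m false q)) ε *
    (v (oX true 1 (fI m q) (8 * m + 1) e) * chi F (bitv m (fq m true q)) ε)

/-- the right hand side of the test of the product `i` of the bank `β` at the point `b` -/
def rhs (N : ℕ) (β : Bool) (i b : ℕ) (v : Ad m D.M.n → F) : F :=
  if (if β then i < fI m (N / 8) else N % 4 ≠ 0) then
    v (oX β 0 i b (m + 1)) * v (oX β 1 i b (m + 1))
  else if β = true ∧ i = fI m (N / 8) then
    (∑ ω : Fin m, v (oX β 0 i b (ω + 1))) * v (oX β 1 i b (m + 1)) +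
      v (oX β 0 i b 0) * (∑ ω : Fin m, v (oX β 1 i b (ω + 1)) +
        if N / 4 % 2 = 1 then v (oX β 1 i b 0) else 0)
  else 0

/-- the pointwise test -/
def trt (κ : Vec (Fin (D.L + 1)) F) (ε : Gam m) (v : Ad m D.M.n → F) : Prop :=
  κ = encC D.L (decN κ) (κ.get 0) ∧ decN κ / 4 ≤ 2 * D.top ∧ (decN κ % 4 = 1 → decN κ / 4 = 0) ∧
    κ.get 0 = D.rdc (decN κ / 8) 0 ε v ∧
    ∀ (β : Bool) (i : Fin (D.M.n + 1)) (b : Fin (8 * m + 1)),
      v (oX β 2 i b (m + 1)) = D.rhs (decN κ) β i b v

/-- the value of a register in the list of all values -/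
noncomputable def look (l : List F) (a : Ad m D.M.n) : F := l.getD (ad a) 0

open Classical in
/-- the machine with control -/
noncomputable def gm : GM m (D.L + 1) F where
  k := Fintype.card (Rg m D.M.n)
  n := Fintype.card (Rg m D.M.n) + D.L * Fintype.card (Sl m D.M.n)
  ins κ i := TIns.map (adG (lev m D.M.n i)) id
    (D.tins (decN κ) (κ.get 0) (lev m D.M.n i) (slt m D.M.n i))
  sucR κ r := ad (aMv (D.mvN (decN κ)) (enth (Rg m D.M.n) r))
  preR κ r := ad (aMv (D.mvP (decN κ)) (enth (Rg m D.M.n) r))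
  zero κ i := decide (Fintype.card (Rg m D.M.n) ≤ i ∧
    D.tzero (decN κ) (lev m D.M.n i) (slt m D.M.n i))
  rt κ ε l := decide (D.trt κ ε (D.look l))
  nxt κ ε l := encC D.L (D.nxtN (decN κ))
    (newc (D.mvN (decN κ)) (decN κ) (κ.get 0) (D.rdc (oth (decN κ)) (m + 2) ε (D.look l)))
  prv κ ε l := encC D.L (D.prvN (decN κ) (decide (D.look l (aOut (.inr 2)) = 1)))
    (newc (D.mvP (decN κ)) (decN κ) (κ.get 0) (D.rdc (oth (decN κ)) (m + 2) ε (D.look l)))
  st := encC D.L 0 0

/-- the public words of the machine with control -/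
def gpub (pub : ℕ → Gam m → F) (j : ℕ) : Gam m → F :=
  if j = 0 then dlt m F else D.npub pub (j - 1)

/-- the abstract state which belongs to a state of the machine -/
noncomputable def toSt (κ : Vec (Fin (D.L + 1)) F) (x : Fin D.gm.k → Gam m → F) : D.St :=
  ⟨decN κ, κ.get 0, fun β ρ => x ⟨eidx (β, ρ), eidx_lt _⟩⟩

/-- the state of the vector machine which belongs to a state of the machine -/
noncomputable def vmSt (x : Fin D.gm.k → Gam m → F) : Gam m → F :=
  D.U 0 (x ⟨eidx ((false, none) : Rg m D.M.n), eidx_lt _⟩)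

end Dat

/-! ### Statements of the parts -/

/-- GM-B: the operators and the tests of the products. -/
def OpStmt : Prop :=
  ∀ (m : ℕ) (F : Type) [Field F] (D : Dat m F), D.Cv →
    (∀ b bit (x : Gam m → F), opx (D.r b) (m + 1) bit x = D.U b x) ∧
    (∀ t (x : Gam m → F) ε,
      opx (fun _ => 1) 0 (Nat.testBit t) x ε * chi F (bitv m t) ε = hat x (bitv m t)) ∧
    (∀ (x : Gam m → F) ε, opx (fun _ => 1) 0 (fun _ => false) x ε = hat x 0) ∧
    (∀ q, opx (fun _ => 1) 0
      (fun ω => xor ((fq m false q).testBit ω) ((fq m true q).testBit ω)) (dlt m F) = chv m F q) ∧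
    (∀ b < 8 * m + 1, ∀ (x y : Gam m → F) σ ε, 4 ^ m ≤ σ →
      D.U b (gsum (D.tgt x y σ) (D.t b)) ε = D.U b x ε * D.U b y ε) ∧
    (∀ b < 8 * m + 1, ∀ (x y : Gam m → F) q (w : Bool) ε,
      D.U b (gsum (D.tgt x y (q % 4 ^ m + if w then 1 else 0)) (D.t b)) ε = D.part b q w x y ε) ∧
    ∀ g g' : Fin (m + 1) → Gam m → F,
      frac (fun ε => ∃ b < 8 * m + 1, D.U b (gsum g (D.t b)) ε ≠ D.U b (gsum g' (D.t b)) ε) <
        1 / 2 → g = g'

/-- GM-A: the abstract machine. -/
def AbsStmt : Prop :=
  ∀ (m : ℕ) (F : Type) [Field F] (D : Dat m F) (pub : ℕ → Gam m → F), D.Cv → D.M.Ok pub →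
    D.AValid (D.npub pub) ⟨0, 0, 0⟩ ∧
    (∀ σ, D.AValid (D.npub pub) σ → σ.N = 0 → σ.c = 0 ∧ σ.B = 0) ∧
    (∀ σ, D.AValid (D.npub pub) σ →
      (D.AValid (D.npub pub) (D.Anxt (D.npub pub) σ) ∧
        D.Aprv (D.npub pub) (D.Anxt (D.npub pub) σ) = σ ∧ (D.Anxt (D.npub pub) σ).N ≠ 0) ∨
      D.M.End pub (D.U 0 (σ.B false none))) ∧
    ∀ σ, D.AValid (D.npub pub) σ → σ.N ≠ 0 →
      (D.AValid (D.npub pub) (D.Aprv (D.npub pub) σ) ∧
        D.Anxt (D.npub pub) (D.Aprv (D.npub pub) σ) = σ) ∨
      D.M.End pub (D.U 0 (σ.B false none))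

/-- GM-C: the machine realises the abstract machine. -/
def ImplStmt : Prop :=
  ∀ (m : ℕ) (F : Type) [Field F] (D : Dat m F) (pub : ℕ → Gam m → F), D.Cv → D.M.Ok pub →
    ∀ (κ : Vec (Fin (D.L + 1)) F) (x : Fin D.gm.k → Gam m → F),
      (D.gm.Valid (D.gpub pub) κ x ↔
        κ = encC D.L (decN κ) (κ.get 0) ∧ D.AValid (D.npub pub) (D.toSt κ x)) ∧
      (frac (fun ε => D.gm.rt κ ε (D.gm.roots (D.gpub pub) κ x ε) = false) < 1 / 2 →
        ∀ ε, D.gm.rt κ ε (D.gm.roots (D.gpub pub) κ x ε) = true) ∧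
      (decN κ / 4 ≤ 2 * D.top →
        (∀ ε, D.gm.nxt κ ε (D.gm.roots (D.gpub pub) κ x ε) = encC D.L
          (D.Anxt (D.npub pub) (D.toSt κ x)).N (D.Anxt (D.npub pub) (D.toSt κ x)).c) ∧
        ∀ ε, D.gm.prv κ ε (D.gm.roots (D.gpub pub) κ x ε) = encC D.L
          (D.Aprv (D.npub pub) (D.toSt κ x)).N (D.Aprv (D.npub pub) (D.toSt κ x)).c) ∧
      ∀ ρ : Rg m D.M.n,
        D.gm.reg (D.gpub pub) κ x (D.gm.sucR κ (eidx ρ)) =
          (D.Anxt (D.npub pub) (D.toSt κ x)).B ρ.1 ρ.2 ∧
        D.gm.reg (D.gpub pub) κ x (D.gm.preR κ (eidx ρ)) =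
          (D.Aprv (D.npub pub) (D.toSt κ x)).B ρ.1 ρ.2

/-- GM-E: the machine is well formed, and its ends give ends of the vector machine. -/
def EndStmt : Prop :=
  ∀ (m : ℕ) (F : Type) [Field F] (D : Dat m F) (pub : ℕ → Gam m → F), D.Cv → D.M.Ok pub →
    D.gm.Ok (D.gpub pub) ∧ ∀ κ x, D.gm.End (D.gpub pub) κ x → D.M.End pub (D.vmSt x)

/-- The data are polynomial time in the small parameter. -/
structure DatPT (π : Par) (D : ∀ b, Dat (π.m b) (ZMod (π.p b))) : Prop where
  ptn : DPT fun b => (D b).M.n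
  pbn : PBd fun b => (D b).M.n
  ins : DPT fun x : π.β × ℕ => (D x.1).M.ins x.2
  zero : DPT fun x : π.β × ℕ => (D x.1).M.zero x.2
  suc : DPT fun b => (D b).M.suc
  pre : DPT fun b => (D b).M.pre
  fst : DPT fun b => (D b).M.fst
  a : DPT fun x : π.β × ℕ => (D x.1).a x.2
  t : DPT fun x : π.β × ℕ => (D x.1).t x.2
  r : DPT fun x : π.β × ℕ × ℕ => (D x.1).r x.2.1 x.2.2

/-- GM-D: the machine is polynomial time (all fields of `GMOk` follow, given the last two). -/
def PTStmt : Prop :=
  ∀ (π : Par) (D : ∀ b, Dat (π.m b) (ZMod (π.p b)))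
    (pub : ∀ I, ℕ → Gam (π.m (π.par I)) → ZMod (π.p (π.par I)))
    (dec : ∀ I, Vec (Gam (π.m (π.par I))) (ZMod (π.p (π.par I))) → List Bool), DatPT π D →
    DPT (fun x : Σ I, ℕ × Gam (π.m (π.par I)) => pub x.1 x.2.1 x.2.2) →
    DPT (fun x : Σ I, Vec (Gam (π.m (π.par I))) (ZMod (π.p (π.par I))) => dec x.1 x.2) →
    (∀ I, (D (π.par I)).gm.Ok ((D (π.par I)).gpub (pub I))) →
    (∀ I κ x, (D (π.par I)).gm.End ((D (π.par I)).gpub (pub I)) κ x →
      I.Solution (dec I ((D (π.par I)).vmSt x))) →
    GMOk π (fun b => (D b).L + 1) (fun b => (D b).gm) (fun I => (D (π.par I)).gpub (pub I))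
      fun I _ x => dec I ((D (π.par I)).vmSt x)

end Vale.Agent.P330.Outer.GMD
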