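import Vale.Agent.P330.Outer.GM.Main
import Vale.Agent.P330.Outer.GM.Op
import Vale.Agent.P330.Outer.GM.Abs
import Vale.Agent.P330.Outer.GM.Impl
import Vale.Agent.P330.Outer.GM.PT
import Vale.Agent.P330.Outer.VM
import Vale.Agent.P330.Outer.AG
import Vale.Agent.P330.Outer.Curve
import Vale.Agent.P330.Outer.Adm
import Vale.Agent.P330.Outer.Route
import Vale.Agent.P330.Eol.Main

/-!
P330, outer system: End-of-Line as a family of machines with control and linear programs.
-/

namespace Vale.Agent.P330.Outer

theorem gmStmt : GMStmt :=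
  GMD.gmStmt (vmStmt eolStmt admStmt routeStmt) curveStmt
    (GMD.endStmt (GMD.absStmt (GMD.opStmt agDistStmt)) (GMD.implStmt (GMD.opStmt agDistStmt)))
    GMD.ptStmt

end Vale.Agent.P330.Outer
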