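import Vale.Agent.P330.Outer.GM.Defs

/-!
P330, outer system: the parts of the machine with control are polynomial time.
-/

set_option linter.unusedSectionVars false

namespace Vale.Agent.P330.Outer.GMD

open Vale.Agent.Lib.PolyTime hiding C P
open Vale.Agent.Lib.Dep
open Vale.Agent.P330.Bohr
open Polynomial

namespace PTP

variable {X : Type} [Enc X] {m n p : X → ℕ}

/-! ### Numbers, indices, addresses -/

@[fun_prop]
theorem dpt_finOfNat {i : X → ℕ} (hn : DPT n) (hi : DPT i) :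
    DPT fun x => Fin.ofNat (n x + 1) (i x) :=
  dpt_fin_of_val (DPT.natMod hi (hn.natAdd (DPT.const 1)))

@[fun_prop]
theorem dpt_finZero : DPT fun x => (0 : Fin (n x + 1)) := dpt_fin_of_val (DPT.const 0)

@[fun_prop]
theorem dpt_fI {q : X → ℕ} (hm : DPT m) (hb : PBd m) (hq : DPT q) :
    DPT fun x => fI (m x) (q x) := by
  unfold fI
  fun_prop

@[fun_prop]
theorem dpt_fq {q : X → ℕ} {s : X → Bool} (hm : DPT m) (hb : PBd m) (hs : DPT s) (hq : DPT q) :
    DPT fun x => fq (m x) (s x) (q x) := by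
  unfold fq
  fun_prop

@[fun_prop]
theorem dpt_oth {N : X → ℕ} (hN : DPT N) : DPT fun x => oth (N x) := by
  unfold oth
  fun_prop

@[fun_prop]
theorem dpt_bitv {t : X → ℕ} (hm : DPT m) (hb : PBd m) (ht : DPT t) :
    DPT fun x => bitv (m x) (t x) := by
  refine dpt_vecMk (dpt_elems_fin hm hb) ?_
  unfold bitv
  fun_prop

@[fun_prop]
theorem dpt_aV {β : X → Bool} {j : X → ℕ} (hβ : DPT β) (hj : DPT j) :
    DPT fun x => (aV (β x) (j x) : Ad (m x) (n x)) := by
  unfold aV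
  fun_prop

@[fun_prop]
theorem dpt_aIn {s : ∀ x, Blk (m x) (n x) ⊕ Fin 3} (hn : DPT n) (hs : DPT s) :
    DPT fun x => aIn (s x) := by
  unfold aIn
  fun_prop

@[fun_prop]
theorem dpt_aOut {s : ∀ x, Blk (m x) (n x) ⊕ Fin 3} (hm : DPT m) (hn : DPT n) (hs : DPT s) :
    DPT fun x => aOut (s x) := by
  unfold aOut
  fun_prop

@[fun_prop]
theorem dpt_oX {β : X → Bool} {ty : X → Fin 3} {i b e : X → ℕ} (hm : DPT m) (hn : DPT n)
    (hβ : DPT β) (ht : DPT ty) (hi : DPT i) (hb : DPT b) (he : DPT e) :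
    DPT fun x => (oX (β x) (ty x) (i x) (b x) (e x) : Ad (m x) (n x)) := by
  unfold oX
  have h1 : DPT fun x => Fin.ofNat (8 * m x + 2) (b x) :=
    dpt_finOfNat (n := fun x => 8 * m x + 1) (by fun_prop) hb
  have h2 : DPT fun x => Fin.ofNat (m x + 3) (e x) :=
    dpt_finOfNat (n := fun x => m x + 2) (by fun_prop) he
  fun_prop

@[fun_prop]
theorem dpt_aMv {mv : X → ℕ} {ρ : ∀ x, Rg (m x) (n x)} (hm : DPT m) (hn : DPT n) (hv : DPT mv)
    (hρ : DPT ρ) : DPT fun x => aMv (mv x) (ρ x) := by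
  unfold aMv
  fun_prop

@[fun_prop]
theorem dpt_ad {a : ∀ x, Ad (m x) (n x)} (hm : DPT m) (bm : PBd m) (hn : DPT n) (bn : PBd n)
    (ha : DPT a) : DPT fun x => ad (a x) := by
  unfold ad
  fun_prop

@[fun_prop]
theorem dpt_adG {l : X → ℕ} {a : ∀ x, Ad (m x) (n x)} (hm : DPT m) (bm : PBd m) (hn : DPT n)
    (bn : PBd n) (hl : DPT l) (ha : DPT a) : DPT fun x => adG (l x) (a x) := by
  unfold adG
  fun_prop

@[fun_prop]
theorem dpt_lev {i : X → ℕ} (hm : DPT m) (bm : PBd m) (hn : DPT n) (bn : PBd n) (hi : DPT i) :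
    DPT fun x => lev (m x) (n x) (i x) := by
  unfold lev
  fun_prop

@[fun_prop]
theorem dpt_slt {i : X → ℕ} (hm : DPT m) (bm : PBd m) (hn : DPT n) (bn : PBd n) (hi : DPT i) :
    DPT fun x => slt (m x) (n x) (i x) := by
  unfold slt
  fun_prop

@[fun_prop]
theorem dpt_thr {s : ∀ x, Blk (m x) (n x) ⊕ Fin 3} (hm : DPT m) (hs : DPT s) :
    DPT fun x => thr (s x) := by
  unfold thr
  fun_prop

@[fun_prop]
theorem dpt_bitB {N ω : X → ℕ} {s : ∀ x, Blk (m x) (n x) ⊕ Fin 3} (hm : DPT m) (bm : PBd m)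
    (hN : DPT N) (hs : DPT s) (hω : DPT ω) : DPT fun x => bitB (N x) (s x) (ω x) := by
  unfold bitB
  fun_prop

/-! ### Field elements -/

variable [∀ x, Fact (p x).Prime]

@[fun_prop]
theorem dpt_div {f g : ∀ x, ZMod (p x)} (hp : DPT p) (hf : DPT f) (hg : DPT g) :
    DPT fun x => f x / g x := by
  simp only [div_eq_mul_inv]
  fun_prop

@[fun_prop]
theorem dpt_chi {S ε : ∀ x, Gam (m x)} (hp : DPT p) (hm : DPT m) (bm : PBd m) (hS : DPT S)
    (hε : DPT ε) : DPT fun x => chi (ZMod (p x)) (S x) (ε x) := by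
  have h : DPT fun x => ∏ ω, sg (ZMod (p x)) ((S x).get ω * (ε x).get ω) := by
    unfold sg
    fun_prop
  exact h

@[fun_prop]
theorem dpt_sgn {d : X → Bool} {N : X → ℕ} (hp : DPT p) (hd : DPT d) (hN : DPT N) :
    DPT fun x => sgn (ZMod (p x)) (d x) (N x) := by
  unfold sgn
  fun_prop

@[fun_prop]
theorem dpt_newc {mv N : X → ℕ} {c c' : ∀ x, ZMod (p x)} (hp : DPT p) (hv : DPT mv) (hN : DPT N)
    (hc : DPT c) (hc' : DPT c') : DPT fun x => newc (mv x) (N x) (c x) (c' x) := by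
  unfold newc
  fun_prop

@[fun_prop]
theorem dpt_decN {κ : ∀ x, Vec (Fin (n x + 1)) (ZMod (p x))} (hp : DPT p) (hn : DPT n) (bn : PBd n)
    (hκ : DPT κ) : DPT fun x => decN (κ x) := by
  unfold decN
  exact dpt_natSum (by fun_prop) (by fun_prop)

@[fun_prop]
theorem dpt_encC {N : X → ℕ} {c : ∀ x, ZMod (p x)} (hp : DPT p) (hn : DPT n) (bn : PBd n)
    (hN : DPT N) (hc : DPT c) : DPT fun x => encC (n x) (N x) (c x) := by
  unfold encC
  fun_prop

theorem dpt_alf {e ω : X → ℕ} {bit : X → ℕ → Bool} (hp : DPT p) (he : DPT e)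
    (hb : DPT fun x => bit x (ω x)) (hω : DPT ω) :
    DPT fun x => alf (ZMod (p x)) (e x) (bit x) (ω x) := by
  have h1 := DPr.eq hb (DPT.const true)
  unfold alf
  exact DPT.ite (by fun_prop) (by fun_prop) (DPT.ite (by fun_prop)
    (DPT.ite h1 (by fun_prop) (by fun_prop)) (DPT.ite h1 (by fun_prop) (by fun_prop)))

theorem dpt_bet {e ω : X → ℕ} {bit : X → ℕ → Bool} {r : ∀ x, ℕ → ZMod (p x)} (hp : DPT p)
    (he : DPT e) (hb : DPT fun x => bit x (ω x)) (hr : DPT fun x => r x (ω x)) (hω : DPT ω) :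
    DPT fun x => bet (e x) (bit x) (r x) (ω x) := by
  unfold bet
  exact DPT.ite (by fun_prop) hr (DPT.ite (by fun_prop) (by fun_prop)
    (DPT.ite (DPr.eq hb (DPT.const true)) hr (by fun_prop)))

theorem dpt_tmap {A A' : X → Type} [∀ x, Enc (A x)] [∀ x, Enc (A' x)] {φ : ∀ x, A x → A' x}
    {ψ : ℕ → ℕ} {c : ∀ x, TIns (m x) (ZMod (p x)) (A x)} (hφ : DPT fun y : Σ x, A x => φ y.1 y.2)
    (hψ : DPT ψ) (hc : DPT c) : DPT fun x => TIns.map (φ x) ψ (c x) := by
  have := DPT.fn φ hφ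
  unfold TIns.map
  refine dpt_sumMap hc (by fun_prop) (dpt_sumMap DPT.ssnd (by fun_prop) (by fun_prop))

/-! ### The data -/

/-- The data are polynomial time in the context. -/
@[fun_prop]
structure DP (D : ∀ x, Dat (m x) (ZMod (p x))) : Prop where
  hm : DPT m
  bm : PBd m
  hp : DPT p
  hn : DPT fun b => (D b).M.n
  bn : PBd fun b => (D b).M.n
  ins : DPT fun x : X × ℕ => (D x.1).M.ins x.2
  zero : DPT fun x : X × ℕ => (D x.1).M.zero x.2
  suc : DPT fun b => (D b).M.suc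
  pre : DPT fun b => (D b).M.pre
  fst : DPT fun b => (D b).M.fst
  a : DPT fun x : X × ℕ => (D x.1).a x.2
  t : DPT fun x : X × ℕ => (D x.1).t x.2
  r : DPT fun x : X × ℕ × ℕ => (D x.1).r x.2.1 x.2.2

variable {D : ∀ x, Dat (m x) (ZMod (p x))}

@[fun_prop]
theorem dpt_n (h : DP D) : DPT fun x => (D x).M.n := h.hn

@[fun_prop]
theorem pbd_n (h : DP D) : PBd fun x => (D x).M.n := h.bn

@[fun_prop]
theorem dpt_ins {i : X → ℕ} (h : DP D) (hi : DPT i) : DPT fun x => (D x).M.ins (i x) :=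
  DPT.comp (f := fun x => (x, i x)) h.ins (DPT.id.pair hi)

@[fun_prop]
theorem dpt_zero {i : X → ℕ} (h : DP D) (hi : DPT i) : DPT fun x => (D x).M.zero (i x) :=
  DPT.comp (f := fun x => (x, i x)) h.zero (DPT.id.pair hi)

@[fun_prop]
theorem dpt_suc (h : DP D) : DPT fun x => (D x).M.suc := h.suc

@[fun_prop]
theorem dpt_pre (h : DP D) : DPT fun x => (D x).M.pre := h.pre

@[fun_prop]
theorem dpt_fst (h : DP D) : DPT fun x => (D x).M.fst := h.fst

@[fun_prop]
theorem dpt_a {i : X → ℕ} (h : DP D) (hi : DPT i) : DPT fun x => (D x).a (i x) :=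
  DPT.comp (f := fun x => (x, i x)) h.a (DPT.id.pair hi)

@[fun_prop]
theorem dpt_t {i : X → ℕ} (h : DP D) (hi : DPT i) : DPT fun x => (D x).t (i x) :=
  DPT.comp (f := fun x => (x, i x)) h.t (DPT.id.pair hi)

@[fun_prop]
theorem dpt_r {i j : X → ℕ} (h : DP D) (hi : DPT i) (hj : DPT j) :
    DPT fun x => (D x).r (i x) (j x) :=
  DPT.comp (f := fun x => (x, i x, j x)) h.r (DPT.id.pair (hi.pair hj))

@[fun_prop]
theorem DP.comp {Y : Type} [Enc Y] {c : Y → X} (h : DP D) (hc : DPT c) :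
    DP (m := fun y => m (c y)) (p := fun y => p (c y)) fun y => D (c y) where
  hm := h.hm.comp hc
  bm := pbd_comp h.bm hc
  hp := h.hp.comp hc
  hn := h.hn.comp hc
  bn := pbd_comp h.bn hc
  ins := DPT.comp (f := fun y : Y × ℕ => (c y.1, y.2)) h.ins (by fun_prop)
  zero := DPT.comp (f := fun y : Y × ℕ => (c y.1, y.2)) h.zero (by fun_prop)
  suc := h.suc.comp hc
  pre := h.pre.comp hc
  fst := h.fst.comp hc
  a := DPT.comp (f := fun y : Y × ℕ => (c y.1, y.2)) h.a (by fun_prop)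
  t := DPT.comp (f := fun y : Y × ℕ => (c y.1, y.2)) h.t (by fun_prop)
  r := DPT.comp (f := fun y : Y × ℕ × ℕ => (c y.1, y.2)) h.r (by fun_prop)

@[fun_prop]
theorem dpt_L (h : DP D) : DPT fun x => (D x).L := by
  have := h.hm
  unfold Dat.L
  fun_prop

@[fun_prop]
theorem pbd_L (h : DP D) : PBd fun x => (D x).L := by
  have := h.bm
  unfold Dat.L
  fun_prop

@[fun_prop]
theorem dpt_top (h : DP D) : DPT fun x => (D x).top := by
  have := h.hm
  have := h.bm
  unfold Dat.top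
  fun_prop

@[fun_prop]
theorem dpt_mvN {N : X → ℕ} (h : DP D) (hN : DPT N) : DPT fun x => (D x).mvN (N x) := by
  unfold Dat.mvN
  fun_prop

@[fun_prop]
theorem dpt_mvP {N : X → ℕ} (h : DP D) (hN : DPT N) : DPT fun x => (D x).mvP (N x) := by
  unfold Dat.mvP
  fun_prop

@[fun_prop]
theorem dpt_nxtN {N : X → ℕ} (h : DP D) (hN : DPT N) : DPT fun x => (D x).nxtN (N x) := by
  unfold Dat.nxtN
  fun_prop

@[fun_prop]
theorem dpt_prvN {N : X → ℕ} {fl : X → Bool} (h : DP D) (hN : DPT N) (hf : DPT fl) :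
    DPT fun x => (D x).prvN (N x) (fl x) := by
  unfold Dat.prvN
  fun_prop

@[fun_prop]
theorem dpt_ek {q k : X → ℕ} (h : DP D) (hq : DPT q) (hk : DPT k) :
    DPT fun x => (D x).ek (q x) (k x) := by
  have := h.hm
  have := h.bm
  have := h.hp
  unfold Dat.ek
  fun_prop

@[fun_prop]
theorem dpt_fac {s : X → Bool} {i : X → ℕ} (h : DP D) (hs : DPT s) (hi : DPT i) :
    DPT fun x => (D x).fac (s x) (i x) := by
  unfold Dat.fac
  fun_prop

@[fun_prop]
theorem dpt_rtB {s : ∀ x, Blk (m x) (D x).M.n ⊕ Fin 3} {ω : X → ℕ} (h : DP D) (hs : DPT s)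
    (hω : DPT ω) : DPT fun x => (D x).rtB (s x) (ω x) := by
  have := h.hm
  have := h.hp
  unfold Dat.rtB
  fun_prop

@[fun_prop]
theorem dpt_gIns {β : X → Bool} {i : ∀ x, Fin ((D x).M.n + 1)} {τ : ∀ x, ZMod (p x)} (h : DP D)
    (hβ : DPT β) (hi : DPT i) (hτ : DPT τ) : DPT fun x => (D x).gIns (β x) (i x) (τ x) := by
  have := h.hm
  have := h.bm
  have := h.hp
  unfold Dat.gIns
  fun_prop

@[fun_prop]
theorem dpt_vmIns {β : X → Bool} {j : X → ℕ} (h : DP D) (hβ : DPT β) (hj : DPT j) :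
    DPT fun x => (D x).vmIns (β x) (j x) := by
  have := h.hp
  unfold Dat.vmIns
  refine DPT.ite (by fun_prop) (by fun_prop) (dpt_sumElim (by fun_prop)
    (dpt_tmap (A := fun _ => ℕ) (by fun_prop) (by fun_prop) DPT.ssnd) (by fun_prop))

@[fun_prop]
theorem dpt_inIns {s : ∀ x, Blk (m x) (D x).M.n ⊕ Fin 3} (h : DP D) (hs : DPT s) :
    DPT fun x => (D x).inIns (s x) := by
  have := h.hp
  unfold Dat.inIns
  fun_prop

@[fun_prop]
theorem dpt_opIns {N j : X → ℕ} {s : ∀ x, Blk (m x) (D x).M.n ⊕ Fin 3} (h : DP D) (hN : DPT N)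
    (hj : DPT j) (hs : DPT s) : DPT fun x => (D x).opIns (N x) (j x) (s x) := by
  have := h.hm
  have := h.bm
  have hp := h.hp
  have h1 : DPT fun x => alf (ZMod (p x)) (thr (s x)) (bitB (N x) (s x)) (j x / 2) :=
    dpt_alf hp (by fun_prop) (by fun_prop) (by fun_prop)
  have h2 : DPT fun x => bet (thr (s x)) (bitB (N x) (s x)) ((D x).rtB (s x)) (j x / 2) :=
    dpt_bet hp (by fun_prop) (by fun_prop) (by fun_prop) (by fun_prop)
  unfold Dat.opIns
  refine DPT.ite (by fun_prop) (dpt_dite (by fun_prop) ?_ (by fun_prop)) ?_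
  · have h3 : DPT fun x : {x // j x / 2 < m x} => x.1 := DPT.id.val
    fun_prop
  · refine dpt_inl (DPT.cons (DPT.pair (dpt_div hp (DPT.add (by fun_prop) h1 h2) (by fun_prop))
      (by fun_prop)) (DPT.cons (DPT.pair (dpt_div hp (DPT.sub (by fun_prop) h1 h2) (by fun_prop))
      (by fun_prop)) DPT.nil))

@[fun_prop]
theorem dpt_aSrc {N : X → ℕ} (h : DP D) (hN : DPT N) : DPT fun x => (D x).aSrc (N x) := by
  unfold Dat.aSrc
  fun_prop

@[fun_prop]
theorem dpt_mvIns {N : X → ℕ} {c : ∀ x, ZMod (p x)} {ρ : ∀ x, Rg (m x) (D x).M.n} (h : DP D)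
    (hN : DPT N) (hc : DPT c) (hρ : DPT ρ) : DPT fun x => (D x).mvIns (N x) (c x) (ρ x) := by
  have := h.hm
  have := h.bm
  have := h.hp
  unfold Dat.mvIns
  fun_prop

@[fun_prop]
theorem dpt_zIns {N : X → ℕ} {β : X → Bool} (h : DP D) (hN : DPT N) (hβ : DPT β) :
    DPT fun x => (D x).zIns (N x) (β x) := by
  have := h.hp
  unfold Dat.zIns
  fun_prop

@[fun_prop]
theorem dpt_tins {N l : X → ℕ} {c : ∀ x, ZMod (p x)} {s : ∀ x, Sl (m x) (D x).M.n} (h : DP D)
    (hN : DPT N) (hc : DPT c) (hl : DPT l) (hs : DPT s) :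
    DPT fun x => (D x).tins (N x) (c x) (l x) (s x) := by
  have := h.hm
  unfold Dat.tins
  fun_prop

@[fun_prop]
theorem dpr_tzero {N l : X → ℕ} {s : ∀ x, Sl (m x) (D x).M.n} (h : DP D) (hN : DPT N) (hl : DPT l)
    (hs : DPT s) : DPr fun x => (D x).tzero (N x) (l x) (s x) := by
  have := h.hm
  unfold Dat.tzero
  fun_prop

@[fun_prop]
theorem dpt_look {l : ∀ x, List (ZMod (p x))} {a : ∀ x, Ad (m x) (D x).M.n} (h : DP D) (hl : DPT l)
    (ha : DPT a) : DPT fun x => (D x).look (l x) (a x) := by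
  have := h.hm
  have := h.bm
  have := h.hp
  unfold Dat.look
  fun_prop

@[fun_prop]
theorem dpt_rdc {q e : X → ℕ} {ε : ∀ x, Gam (m x)} {l : ∀ x, List (ZMod (p x))} (h : DP D)
    (hq : DPT q) (he : DPT e) (hε : DPT ε) (hl : DPT l) :
    DPT fun x => (D x).rdc (q x) (e x) (ε x) ((D x).look (l x)) := by
  have := h.hm
  have := h.bm
  have := h.hp
  unfold Dat.rdc
  fun_prop

@[fun_prop]
theorem dpt_rhs {N i b : X → ℕ} {β : X → Bool} {l : ∀ x, List (ZMod (p x))} (h : DP D)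
    (hN : DPT N) (hβ : DPT β) (hi : DPT i) (hb : DPT b) (hl : DPT l) :
    DPT fun x => (D x).rhs (N x) (β x) (i x) (b x) ((D x).look (l x)) := by
  have := h.hm
  have := h.bm
  have := h.hp
  have h1 : DPr fun x => if β x then i x < fI (m x) (N x / 8) else N x % 4 ≠ 0 := by
    have h2 : DPr fun x => (β x = true ∧ i x < fI (m x) (N x / 8)) ∨
        (¬ β x = true ∧ N x % 4 ≠ 0) := by fun_prop
    exact h2.congr fun x => by cases β x <;> simp
  unfold Dat.rhs
  exact DPT.ite h1 (by fun_prop) (by fun_prop)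

@[fun_prop]
theorem dpr_trt {κ : ∀ x, Vec (Fin ((D x).L + 1)) (ZMod (p x))} {ε : ∀ x, Gam (m x)}
    {l : ∀ x, List (ZMod (p x))} (h : DP D) (hκ : DPT κ) (hε : DPT ε) (hl : DPT l) :
    DPr fun x => (D x).trt (κ x) (ε x) ((D x).look (l x)) := by
  have := h.hm
  have := h.bm
  have := h.hp
  unfold Dat.trt
  refine DPr.and (by fun_prop) (DPr.and (by fun_prop) (DPr.and (dpr_imp (by fun_prop)
    (by fun_prop)) (DPr.and (by fun_prop) (dpr_forall_const fun β => ?_))))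
  exact dpr_forall (by fun_prop) (dpr_forall (by fun_prop) (by fun_prop))

end PTP

end Vale.Agent.P330.Outer.GMD
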