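import Vale.Agent.P330.Outer.GM.Defs

/-!
P330, outer system: the values of the registers of the machine with control.
-/

namespace Vale.Agent.P330.Outer.GMD

open Vale.Agent.P330.Bohr

variable {m : ℕ} {F : Type} [Field F]

theorem eval_map {A A' : Type} (pub : ℕ → Gam m → F) (R : A' → Gam m → F) (φ : A → A')
    (ψ : ℕ → ℕ) (c : TIns m F A) :
    (TIns.map φ ψ c).eval pub R = c.eval (fun j => pub (ψ j)) fun a => R (φ a) := by
  rcases c with l | c | i
  · funext ε
    simp only [TIns.map, Sum.map_inl, TIns.eval, List.map_map, Function.comp_def]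
  · rfl
  · rfl

theorem lins_eval (pub R : ℕ → Gam m → F) (c : LIns m F) :
    LIns.eval pub R c = TIns.eval pub R c := by
  rcases c with l | c | i <;> rfl

theorem card_sl_pos (m n : ℕ) : 0 < Fintype.card (Sl m n) := Fintype.card_pos

theorem ad_inr {n : ℕ} (l : ℕ) (s : Sl m n) :
    ad (.inr (l, s) : Ad m n) = Fintype.card (Rg m n) + l * Fintype.card (Sl m n) + eidx s := rfl

theorem lev_ad {n : ℕ} (l : ℕ) (s : Sl m n) : lev m n (ad (.inr (l, s) : Ad m n)) = l := by
  rw [lev, ad_inr, add_assoc, Nat.add_sub_cancel_left, add_comm,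
    Nat.add_mul_div_right _ _ (card_sl_pos m n), Nat.div_eq_of_lt (eidx_lt s), zero_add]

theorem slt_ad {n : ℕ} (l : ℕ) (s : Sl m n) : slt m n (ad (.inr (l, s) : Ad m n)) = s := by
  rw [slt, ad_inr, add_assoc, Nat.add_sub_cancel_left, add_comm _ (eidx s),
    Nat.add_mul_mod_self_right, Nat.mod_eq_of_lt (eidx_lt s), enth_eidx]

theorem ad_lev_slt {n i : ℕ} (h : Fintype.card (Rg m n) ≤ i) :
    ad (.inr (lev m n i, slt m n i) : Ad m n) = i := by
  rw [ad_inr, slt, eidx_enth (Nat.mod_lt _ (card_sl_pos m n)), lev, add_assoc, mul_comm,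
    Nat.div_add_mod]
  omega

theorem ad_inr_lt {n l l' : ℕ} (s : Sl m n) (h : l < l') :
    ad (.inr (l, s) : Ad m n) < Fintype.card (Rg m n) + l' * Fintype.card (Sl m n) := by
  have h1 := eidx_lt s
  have h2 := Nat.mul_le_mul_right (Fintype.card (Sl m n)) (Nat.succ_le_of_lt h)
  rw [Nat.succ_mul] at h2
  rw [ad_inr]
  omega

theorem lev_lt {n i L : ℕ} (h : i < Fintype.card (Rg m n) + L * Fintype.card (Sl m n))
    (h' : Fintype.card (Rg m n) ≤ i) : lev m n i < L := by
  rw [lev, Nat.div_lt_iff_lt_mul (card_sl_pos m n)]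
  omega

namespace Dat

variable (D : Dat m F) (pub : ℕ → Gam m → F) (κ : Vec (Fin (D.L + 1)) F)
  (x : Fin D.gm.k → Gam m → F)

/-- the register with the address `a` -/
noncomputable def R (a : Ad m D.M.n) : Gam m → F := D.gm.reg (D.gpub pub) κ x (ad a)

/-- the registers which are visible at the level `l` -/
noncomputable def vis (l : ℕ) (a : Ad m D.M.n) : Gam m → F :=
  a.elim (fun ρ => D.R pub κ x (.inl ρ)) fun y => if y.1 < l then D.R pub κ x (.inr y) else 0

theorem R_inl (ρ : Rg m D.M.n) : D.R pub κ x (.inl ρ) = (D.toSt κ x).B ρ.1 ρ.2 := by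
  have h : ad (.inl ρ : Ad m D.M.n) < D.gm.k := eidx_lt ρ
  rw [R, GM.reg, run_eq, if_pos h, dif_pos h]
  rfl

theorem R_inr (l : ℕ) (s : Sl m D.M.n) : D.R pub κ x (.inr (l, s)) =
    (D.tins (decN κ) (κ.get 0) l s).eval (D.gpub pub) (D.vis pub κ x l) := by
  have h : ¬ ad (.inr (l, s) : Ad m D.M.n) < D.gm.k := by
    change ¬ _ < Fintype.card (Rg m D.M.n)
    rw [ad_inr]
    omega
  rw [R, GM.reg, run_eq, if_neg h, lins_eval]
  change TIns.eval _ _ (TIns.map _ _ _) = _
  rw [eval_map, lev_ad, slt_ad]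
  congr 1
  funext a
  rcases a with ρ | ⟨l', s'⟩
  · have h1 : adG l (.inl ρ : Ad m D.M.n) < ad (.inr (l, s) : Ad m D.M.n) := by
      have := eidx_lt ρ
      change eidx ρ < _
      rw [ad_inr]
      omega
    rw [if_pos h1]
    rfl
  · by_cases h2 : l' < l
    · have h3 : adG l (.inr (l', s') : Ad m D.M.n) = ad (.inr (l', s') : Ad m D.M.n) := if_pos h2
      have h4 := ad_inr_lt s' h2
      rw [h3, if_pos (by rw [ad_inr l]; omega)]
      exact (if_pos h2).symm
    · have h3 : adG l (.inr (l', s') : Ad m D.M.n) =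
          Fintype.card (Rg m D.M.n) + (l + 1) * Fintype.card (Sl m D.M.n) := if_neg h2
      have h4 := ad_inr_lt (l' := l + 1) s (Nat.lt_succ_self l)
      rw [h3, if_neg (by omega)]
      exact (if_neg h2).symm

theorem vis_inl (l : ℕ) (ρ : Rg m D.M.n) :
    D.vis pub κ x l (.inl ρ) = (D.toSt κ x).B ρ.1 ρ.2 := D.R_inl pub κ x ρ

theorem vis_inr {l l' : ℕ} (s : Sl m D.M.n) (h : l' < l) :
    D.vis pub κ x l (.inr (l', s)) = D.R pub κ x (.inr (l', s)) := if_pos h

theorem eval_gIns (l : ℕ) (β : Bool) (i : Fin (D.M.n + 1)) (τ : F) :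
    (D.gIns β i τ).eval (D.gpub pub) (D.vis pub κ x l) =
      gsum (fun k => (D.toSt κ x).B β (some (i, k))) τ := by
  funext ε
  simp only [gIns, TIns.eval, List.map_map, Function.comp_def, vis_inl, gsum]
  rw [Fin.sum_univ_def]

theorem R_aV (β : Bool) (j : ℕ) (hj : j < D.M.n) :
    D.R pub κ x (aV β j) = D.bV (D.npub pub) ((D.toSt κ x).B β) j := by
  induction j using Nat.strong_induction_on with
  | _ j ih =>
    rw [aV, R_inr, bV, run_eq]
    change (if j < D.M.n then D.vmIns β j else _).eval _ _ = _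
    rw [if_pos hj, vmIns]
    by_cases h0 : j = 0
    · rw [if_pos h0, if_pos (by omega)]
      funext ε
      simp [TIns.eval, vis_inl]
    · rw [if_neg h0, if_neg (by omega)]
      rcases D.M.ins j with c | c
      · simp only [Sum.elim_inl]
        rw [eval_map, lins_eval]
        congr 1
        funext j'
        by_cases h : j' < j
        · rw [if_pos h, aV, D.vis_inr pub κ x _ h]
          exact ih j' h (h.trans hj)
        · rw [if_neg h]
          exact if_neg h
      · simp only [Sum.elim_inr]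
        exact D.eval_gIns pub κ x _ _ _ _

theorem vis_aV (β : Bool) {j l : ℕ} (hj : j < D.M.n) (hl : D.M.n ≤ l) :
    D.vis pub κ x l (aV β j) = D.bV (D.npub pub) ((D.toSt κ x).B β) j := by
  rw [← D.R_aV pub κ x β j hj]
  exact D.vis_inr pub κ x _ (by omega)

omit [Field F] in
theorem fac_lt {s : Bool} {i j : ℕ} (h : D.fac s i = some j) : j < D.M.n := by
  unfold fac at h
  rcases hc : D.M.ins i with c | c <;> rw [hc] at h
  · simp at h
  · simp only [Sum.elim_inr] at h
    split_ifs at h with h1 h2 h3 <;> simp only [Option.some.injEq] at h <;> omega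

theorem R_aIn (s : Blk m D.M.n ⊕ Fin 3) : D.R pub κ x (aIn s) =
    (D.inIns s).eval (D.gpub pub) (D.vis pub κ x D.M.n) := by
  rw [aIn, R_inr]
  change (if D.M.n ≤ D.M.n then D.inIns s else _).eval _ _ = _
  rw [if_pos le_rfl]

theorem R_aIn_fac (y : Blk m D.M.n) (h : y.2.1 ≠ 2) : D.R pub κ x (aIn (.inl y)) =
    D.facV (D.npub pub) ((D.toSt κ x).B y.1) (decide (y.2.1 = 1)) y.2.2.1 := by
  rw [R_aIn, inIns, Sum.elim_inl, if_neg h, facV]
  rcases hc : D.fac (decide (y.2.1 = 1)) y.2.2.1 with _ | j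
  · rfl
  · funext ε
    simp [TIns.eval, D.vis_aV pub κ x _ (D.fac_lt hc) le_rfl]

theorem R_aIn_g (y : Blk m D.M.n) (h : y.2.1 = 2) : D.R pub κ x (aIn (.inl y)) =
    gsum (fun k => (D.toSt κ x).B y.1 (some (y.2.2.1, k))) (D.t y.2.2.2.1) := by
  rw [R_aIn, inIns, Sum.elim_inl, if_pos h, eval_gIns]

theorem R_aIn0 : D.R pub κ x (aIn (.inr 0)) = D.npub pub 0 := by
  rw [R_aIn]
  rfl

theorem R_aIn1 : D.R pub κ x (aIn (.inr 1)) = dlt m F := by
  rw [R_aIn]
  rfl

theorem R_aIn2 (h : D.M.fst < D.M.n) :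
    D.R pub κ x (aIn (.inr 2)) = D.bV (D.npub pub) ((D.toSt κ x).B false) D.M.fst := by
  rw [R_aIn]
  funext ε
  change (List.map _ [_]).sum = _
  simp [D.vis_aV pub κ x _ h le_rfl]

theorem R_step (s : Blk m D.M.n ⊕ Fin 3) (ω : ℕ) (h : ω ≤ m) :
    D.R pub κ x (.inr (D.M.n + 2 * ω, .inr s)) =
      pOp (alf F (thr s) (bitB (decN κ) s)) (bet (thr s) (bitB (decN κ) s) (D.rtB s))
        (D.R pub κ x (aIn s)) ω := by
  induction ω with
  | zero => rfl
  | succ ω ih =>
    have hω : ω < m := h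
    have h1 : D.R pub κ x (.inr (D.M.n + 2 * ω + 1, .inr s)) =
        fun ε => D.R pub κ x (.inr (D.M.n + 2 * ω, .inr s)) (ε + eV ⟨ω, hω⟩) := by
      rw [R_inr]
      change (if _ ≤ D.M.n then _ else D.opIns _ _ s).eval _ _ = _
      rw [if_neg (by omega), show D.M.n + 2 * ω + 1 - D.M.n - 1 = 2 * ω by omega, opIns,
        if_pos (by omega), dif_pos (by omega)]
      funext ε
      simp only [TIns.eval]
      rw [D.vis_inr pub κ x _ (by omega)]
      congr 3
      exact Fin.ext (by simp)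
    rw [R_inr]
    change (if _ ≤ D.M.n then _ else D.opIns _ _ s).eval _ _ = _
    rw [if_neg (by omega), show D.M.n + 2 * (ω + 1) - D.M.n - 1 = 2 * ω + 1 by omega, opIns,
      if_neg (by omega), show (2 * ω + 1) / 2 = ω by omega,
      show D.M.n + (2 * ω + 1) - 1 = D.M.n + 2 * ω by omega, pOp, dif_pos hω]
    funext ε
    simp only [TIns.eval, List.map_cons, List.map_nil, List.sum_cons, List.sum_nil, add_zero]
    rw [D.vis_inr pub κ x _ (by omega), D.vis_inr pub κ x _ (by omega), ← add_assoc, h1,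
      ih hω.le]

theorem R_aOut (s : Blk m D.M.n ⊕ Fin 3) : D.R pub κ x (aOut s) =
    opx (D.rtB s) (thr s) (bitB (decN κ) s) (D.R pub κ x (aIn s)) :=
  D.R_step pub κ x s m le_rfl

theorem R_oX (β : Bool) (ty : Fin 3) (hty : ty ≠ 2) {i b e : ℕ} (hi : i ≤ D.M.n)
    (hb : b ≤ 8 * m + 1) (he : e ≤ m + 2) : D.R pub κ x (oX β ty i b e) =
    opx (if b < 8 * m + 1 then D.r b else fun _ => 1) (if e = m + 2 then 0 else e)
      (fq m (decide (ty = 1)) (if e = m + 2 then oth (decN κ) else decN κ / 8)).testBit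
      (D.facV (D.npub pub) ((D.toSt κ x).B β) (decide (ty = 1)) i) := by
  have h1 : ((Fin.ofNat (D.M.n + 1) i : Fin _) : ℕ) = i := Nat.mod_eq_of_lt (by omega)
  have h2 : ((Fin.ofNat (8 * m + 2) b : Fin _) : ℕ) = b := Nat.mod_eq_of_lt (by omega)
  have h3 : ((Fin.ofNat (m + 3) e : Fin _) : ℕ) = e := Nat.mod_eq_of_lt (by omega)
  rw [oX, R_aOut, D.R_aIn_fac pub κ x _ hty]
  congr 1
  · funext ω
    simp only [rtB, Sum.elim_inl, h2]
    split_ifs <;> rfl
  · simp only [thr, Sum.elim_inl, h3]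
  · funext ω
    simp only [bitB, Sum.elim_inl, h3]
  · simp only [h1]

theorem R_oG (β : Bool) (i : Fin (D.M.n + 1)) {b : ℕ} (hb : b < 8 * m + 1) :
    ∃ bit, D.R pub κ x (oX β 2 i b (m + 1)) =
      opx (D.r b) (m + 1) bit (gsum (fun k => (D.toSt κ x).B β (some (i, k))) (D.t b)) := by
  have h1 : Fin.ofNat (D.M.n + 1) (i : ℕ) = i := Fin.ext (Nat.mod_eq_of_lt i.2)
  have h2 : ((Fin.ofNat (8 * m + 2) b : Fin _) : ℕ) = b := Nat.mod_eq_of_lt (by omega)
  have h3 : ((Fin.ofNat (m + 3) (m + 1) : Fin _) : ℕ) = m + 1 := Nat.mod_eq_of_lt (by omega)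
  rw [oX, R_aOut, D.R_aIn_g pub κ x _ rfl]
  refine ⟨bitB (m := m) (decN κ) (.inl (β, 2, Fin.ofNat (D.M.n + 1) (i : ℕ), Fin.ofNat _ b,
    Fin.ofNat _ (m + 1))), ?_⟩
  congr 1
  · funext ω
    simp only [rtB, Sum.elim_inl, h2, if_pos hb]
  · simp only [thr, Sum.elim_inl, h3]
    rw [if_neg (by omega)]
  · simp only [h1, h2]

theorem R_chi : D.R pub κ x (aOut (.inr 1)) = opx (fun _ => 1) 0
    (fun ω => xor ((fq m false (decN κ / 8)).testBit ω) ((fq m true (decN κ / 8)).testBit ω))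
    (dlt m F) := by
  rw [R_aOut, R_aIn1]
  rfl

theorem R_flag (h : D.M.fst < D.M.n) : D.R pub κ x (aOut (.inr 2)) =
    opx (fun _ => 1) 0 (fun _ => false) (D.bV (D.npub pub) ((D.toSt κ x).B false) D.M.fst) := by
  rw [R_aOut, D.R_aIn2 pub κ x h]
  rfl

theorem vis_aSrc (hM : D.M.Ok pub) {l : ℕ} (hl : D.M.n < l) (N : ℕ) :
    D.vis pub κ x l (D.aSrc N) = D.src (D.npub pub) N ((D.toSt κ x).B false) := by
  unfold aSrc src
  split_ifs
  · rw [aIn, D.vis_inr pub κ x _ hl]
    exact D.R_aIn0 pub κ x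
  · exact D.vis_aV pub κ x _ hM.suc hl.le
  · exact D.vis_aV pub κ x _ hM.pre hl.le

theorem R_z (hM : D.M.Ok pub) (β : Bool) :
    D.R pub κ x (.inr (D.M.n + 2 * m + 2, .inl (β, none))) = fun ε => (D.toSt κ x).B β none ε -
      (if β then (if decN κ / 4 = 0 then 0 else D.src (D.npub pub) (decN κ) ((D.toSt κ x).B false))
        else if decN κ % 4 = 1 then D.npub pub 0 else 0) ε := by
  rw [R_inr]
  change (if _ < D.M.n then _ else if _ = D.M.n + 2 * m + 1 then _ else D.zIns _ β).eval _ _ = _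
  rw [if_neg (by omega), if_neg (by omega)]
  funext ε
  have h1 := D.vis_aSrc pub κ x hM (l := D.M.n + 2 * m + 2) (by omega) (decN κ)
  have h2 : D.vis pub κ x (D.M.n + 2 * m + 2) (aIn (.inr 0)) = D.npub pub 0 := by
    rw [aIn, D.vis_inr pub κ x _ (by omega)]
    exact D.R_aIn0 pub κ x
  simp only [zIns, TIns.eval, List.map_cons, List.map_nil, List.sum_cons, List.sum_nil, add_zero,
    vis_inl, one_mul]
  split_ifs <;> simp [h1, h2, sub_eq_add_neg]

theorem R_mv (hM : D.M.Ok pub) (hχ : D.R pub κ x (aOut (.inr 1)) = chv m F (decN κ / 8))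
    (mv : ℕ) (ρ : Rg m D.M.n) :
    D.R pub κ x (aMv mv ρ) = D.mvB (D.npub pub) mv (D.toSt κ x) ρ.1 ρ.2 := by
  obtain ⟨β, ρ⟩ := ρ
  unfold aMv mvB
  by_cases h0 : mv = 0
  · rw [if_pos h0, if_pos h0, R_inl]
  rw [if_neg h0, if_neg h0]
  by_cases h1 : mv = 1
  · rw [if_pos h1, if_pos h1, R_inl]
  rw [if_neg h1, if_neg h1]
  cases β
  · exact D.R_inl pub κ x _
  rw [if_pos rfl, if_pos rfl, R_inr]
  change (if _ < D.M.n then _ else if _ = D.M.n + 2 * m + 1 then D.mvIns _ _ _ else _).eval _ _ = _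
  rw [if_neg (by omega), if_pos rfl]
  funext ε
  have h2 := D.vis_aSrc pub κ x hM (l := D.M.n + 2 * m + 1) (by omega) (decN κ)
  have h3 : D.vis pub κ x (D.M.n + 2 * m + 1) (aOut (.inr 1)) = chv m F (decN κ / 8) := by
    rw [← hχ, aOut, D.vis_inr pub κ x _ (by omega)]
  simp only [mvIns, TIns.eval, List.map_cons, List.map_nil, List.sum_cons, List.sum_nil, add_zero,
    vis_inl, one_mul, delta]
  congr 1
  rcases ρ with _ | ik
  · simp only [Option.elim_none, h2]
    change _ = _ * (if decN κ / 8 = 0 then D.src _ (decN κ) _ else 0) ε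
    split_ifs <;> simp [toSt]
  · simp only [Option.elim_some, h3]
    change _ = _ * (if _ = fI m (decN κ / 8) then _ else 0 : Gam m → F) ε
    split_ifs
    · simp only [toSt]
      ring
    · simp

theorem look_roots (ε : Gam m) {a : Ad m D.M.n} (h : ad a < D.gm.n) :
    D.look (D.gm.roots (D.gpub pub) κ x ε) a = D.R pub κ x a ε := by
  rw [look, GM.roots, List.getD_eq_getElem _ _ (by simpa using h)]
  simp [R]

theorem look_aOut (ε : Gam m) (s : Blk m D.M.n ⊕ Fin 3) :
    D.look (D.gm.roots (D.gpub pub) κ x ε) (aOut s) = D.R pub κ x (aOut s) ε :=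
  D.look_roots pub κ x ε (ad_inr_lt _ (by unfold L; omega))

theorem look_oX (ε : Gam m) (β : Bool) (ty : Fin 3) (i b e : ℕ) :
    D.look (D.gm.roots (D.gpub pub) κ x ε) (oX β ty i b e) = D.R pub κ x (oX β ty i b e) ε :=
  D.look_aOut pub κ x ε _

end Dat

end Vale.Agent.P330.Outer.GMD
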